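import Vale.Agent.P128.Defs

/-!
# P128: the radial competitor inside a circle that misses the singular set
-/

open Set Metric MeasureTheory Real
open scoped ENNReal NNReal RealInnerProductSpace

namespace Vale.Agent.P128

/-- The point of the circle of radius `r` in the direction of `x`. -/
noncomputable def onCircle (r : ℝ) (x : ℂ) : ℂ := (r / ‖x‖) • x

/-- The outward clamp onto the complement of the disk of radius `r`. -/
noncomputable def clamp (r : ℝ) (x : ℂ) : ℂ := (max ‖x‖ r / ‖x‖) • x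

/-- The cone competitor: linear on radii inside the disk, equal to `u` outside. -/
noncomputable def cone (u : ℂ → ℝ) (r c : ℝ) (x : ℂ) : ℝ :=
  c + min (‖x‖ / r) 1 * (u (clamp r x) - c)

lemma norm_mul_dir_le (x y : ℂ) : ‖x‖ * ‖‖x‖⁻¹ • x - ‖y‖⁻¹ • y‖ ≤ 2 * ‖x - y‖ := by
  rcases eq_or_ne x 0 with rfl | hx
  · simp
  rcases eq_or_ne y 0 with rfl | hy
  · simp [inv_mul_cancel₀ (norm_ne_zero_iff.2 hx)]
    linarith [norm_nonneg x]
  have hxp : 0 < ‖x‖ := norm_pos_iff.2 hx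
  have hyp : 0 < ‖y‖ := norm_pos_iff.2 hy
  have e : ‖x‖⁻¹ • x - ‖y‖⁻¹ • y
      = ‖x‖⁻¹ • ((x - y) + ((‖y‖ - ‖x‖) * ‖y‖⁻¹) • y) := by
    rw [smul_add, smul_sub, smul_smul, sub_add, ← sub_smul]
    congr 2
    field_simp
    ring
  rw [e, norm_smul, norm_inv, norm_norm, mul_inv_cancel_left₀ hxp.ne']
  refine (norm_add_le _ _).trans ?_
  have h2 : ‖((‖y‖ - ‖x‖) * ‖y‖⁻¹) • y‖ = |‖y‖ - ‖x‖| := by
    rw [norm_smul, Real.norm_eq_abs, abs_mul, abs_inv, abs_norm, mul_assoc,
      inv_mul_cancel₀ hyp.ne', mul_one]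
  rw [h2, two_mul]
  exact add_le_add le_rfl ((abs_norm_sub_norm_le y x).trans_eq (norm_sub_rev y x))

lemma norm_onCircle {r : ℝ} (hr : 0 < r) {x : ℂ} (hx : x ≠ 0) : ‖onCircle r x‖ = r := by
  have hxp : 0 < ‖x‖ := norm_pos_iff.2 hx
  rw [onCircle, norm_smul, Real.norm_of_nonneg (by positivity), div_mul_cancel₀ _ hxp.ne']

lemma clamp_eq_self {r : ℝ} {x : ℂ} (hx : r ≤ ‖x‖) : clamp r x = x := by
  rcases eq_or_ne x 0 with rfl | h0
  · simp [clamp]
  · rw [clamp, max_eq_left hx, div_self (norm_ne_zero_iff.2 h0), one_smul]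

lemma clamp_eq_onCircle {r : ℝ} {x : ℂ} (hx : ‖x‖ ≤ r) : clamp r x = onCircle r x := by
  rw [clamp, max_eq_right hx, onCircle]

lemma cone_eq_self {u : ℂ → ℝ} {r c : ℝ} (hr : 0 < r) {x : ℂ} (hx : r ≤ ‖x‖) :
    cone u r c x = u x := by
  rw [cone, clamp_eq_self hx, min_eq_right ((one_le_div hr).2 hx)]
  ring

lemma cone_eq_inner {u : ℂ → ℝ} {r c : ℝ} (hr : 0 < r) {x : ℂ} (hx : ‖x‖ ≤ r) :
    cone u r c x = c + ‖x‖ / r * (u (onCircle r x) - c) := by
  rw [cone, clamp_eq_onCircle hx, min_eq_left ((div_le_one hr).2 hx)]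

lemma clamp_sub_le {r : ℝ} {x y : ℂ} (hx : x ≠ 0) (hy : y ≠ 0) :
    ‖clamp r x - clamp r y‖ ≤ (1 + 2 * max ‖x‖ r / ‖x‖) * ‖x - y‖ := by
  have hxp : 0 < ‖x‖ := norm_pos_iff.2 hx
  have hyp : 0 < ‖y‖ := norm_pos_iff.2 hy
  have e : clamp r x - clamp r y = (max ‖x‖ r - max ‖y‖ r) • (‖y‖⁻¹ • y)
      + max ‖x‖ r • (‖x‖⁻¹ • x - ‖y‖⁻¹ • y) := by
    rw [clamp, clamp, div_eq_mul_inv, div_eq_mul_inv, mul_smul, mul_smul, sub_smul, smul_sub]
    abel
  rw [e]
  refine (norm_add_le _ _).trans ?_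
  rw [norm_smul, norm_smul, norm_smul, norm_inv, norm_norm, inv_mul_cancel₀ hyp.ne', mul_one,
    Real.norm_eq_abs, Real.norm_of_nonneg (hxp.le.trans (le_max_left _ _)), add_mul, one_mul]
  refine add_le_add ((abs_max_sub_max_le_abs _ _ r).trans (abs_norm_sub_norm_le x y)) ?_
  rw [div_mul_eq_mul_div, le_div_iff₀ hxp]
  nlinarith [mul_le_mul_of_nonneg_left (norm_mul_dir_le x y) (hxp.le.trans (le_max_left ‖x‖ r))]

variable {u : ℂ → ℝ} {K : Set ℂ} {r : ℝ}

lemma cone_locallyLipschitzOn (hK : IsClosed K) (hC1 : ContDiffOn ℝ 1 u Kᶜ) (hr : 0 < r)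
    (hfree : sphere (0 : ℂ) r ⊆ Kᶜ) (c : ℝ) :
    LocallyLipschitzOn (K \ ball 0 r)ᶜ (cone u r c) := by
  intro x0 hx0
  have hu := locallyLipschitzOn_of_contDiffOn hK.isOpen_compl hC1
  by_cases hin : ‖x0‖ < r
  · obtain ⟨Λ, hΛ⟩ := (hu.mono hfree).exists_lipschitzOnWith_of_compact (isCompact_sphere _ _)
    obtain ⟨B, hB⟩ := (isCompact_sphere (0 : ℂ) r).exists_bound_of_continuousOn
      ((hC1.continuousOn.mono hfree).sub (continuousOn_const (c := c)))
    have hB0 : 0 ≤ max B 0 := le_max_right _ _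
    refine ⟨Real.toNNReal (max B 0 / r + 2 * Λ), ball 0 r,
      mem_nhdsWithin_of_mem_nhds (isOpen_ball.mem_nhds (mem_ball_zero_iff.2 hin)), ?_⟩
    refine LipschitzOnWith.of_dist_le_mul fun x hx y hy => ?_
    rw [mem_ball_zero_iff] at hx hy
    rw [Real.coe_toNNReal _ (by positivity), Real.dist_eq, dist_eq_norm,
      cone_eq_inner hr hx.le, cone_eq_inner hr hy.le]
    have hbd : ∀ z : ℂ, z ≠ 0 → |u (onCircle r z) - c| ≤ max B 0 := fun z hz =>
      (hB _ (mem_sphere_zero_iff_norm.2 (norm_onCircle hr hz))).trans (le_max_left _ _)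
    rcases eq_or_ne y 0 with rfl | hy0
    · rcases eq_or_ne x 0 with rfl | hx0'
      · simp
      · simp only [norm_zero, zero_div, zero_mul, add_zero, add_sub_cancel_left, sub_zero]
        rw [abs_mul, abs_of_nonneg (by positivity)]
        refine (mul_le_mul_of_nonneg_left (hbd x hx0') (by positivity)).trans ?_
        rw [div_mul_eq_mul_div, add_mul, div_mul_eq_mul_div, mul_comm ‖x‖]
        exact le_add_of_nonneg_right (by positivity)
    rcases eq_or_ne x 0 with rfl | hx0'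
    · simp only [norm_zero, zero_div, zero_mul, add_zero, sub_add_cancel_left, zero_sub, abs_neg]
      rw [abs_mul, abs_of_nonneg (by positivity), norm_neg]
      refine (mul_le_mul_of_nonneg_left (hbd y hy0) (by positivity)).trans ?_
      rw [div_mul_eq_mul_div, add_mul, div_mul_eq_mul_div, mul_comm ‖y‖]
      exact le_add_of_nonneg_right (by positivity)
    have hL : |u (onCircle r x) - u (onCircle r y)|
        ≤ Λ * ‖onCircle r x - onCircle r y‖ := by
      have := hΛ.dist_le_mul _ (mem_sphere_zero_iff_norm.2 (norm_onCircle hr hx0'))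
        _ (mem_sphere_zero_iff_norm.2 (norm_onCircle hr hy0))
      rwa [Real.dist_eq, dist_eq_norm] at this
    have hd : ‖x‖ / r * ‖onCircle r x - onCircle r y‖ ≤ 2 * ‖x - y‖ := by
      have e : onCircle r x - onCircle r y = r • (‖x‖⁻¹ • x - ‖y‖⁻¹ • y) := by
        rw [smul_sub, smul_smul, smul_smul]; rfl
      rw [e, norm_smul, Real.norm_of_nonneg hr.le, ← mul_assoc, div_mul_cancel₀ _ hr.ne']
      exact norm_mul_dir_le x y
    calc |(c + ‖x‖ / r * (u (onCircle r x) - c)) - (c + ‖y‖ / r * (u (onCircle r y) - c))|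
        = |‖x‖ / r * (u (onCircle r x) - u (onCircle r y))
            + (‖x‖ - ‖y‖) / r * (u (onCircle r y) - c)| := by congr 1; ring
      _ ≤ ‖x‖ / r * (Λ * ‖onCircle r x - onCircle r y‖) + ‖x - y‖ / r * max B 0 := by
          refine (abs_add_le _ _).trans (add_le_add ?_ ?_)
          · rw [abs_mul, abs_of_nonneg (by positivity)]
            exact mul_le_mul_of_nonneg_left hL (by positivity)
          · rw [abs_mul, abs_div, abs_of_pos hr]
            exact mul_le_mul (div_le_div_of_nonneg_right (abs_norm_sub_norm_le x y) hr.le)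
              (hbd y hy0) (abs_nonneg _) (by positivity)
      _ ≤ Λ * (2 * ‖x - y‖) + ‖x - y‖ / r * max B 0 := by
          refine add_le_add ?_ le_rfl
          calc _ = (Λ : ℝ) * (‖x‖ / r * ‖onCircle r x - onCircle r y‖) := by ring
            _ ≤ _ := mul_le_mul_of_nonneg_left hd Λ.coe_nonneg
      _ = _ := by ring
  · rw [not_lt] at hin
    have hK0 : x0 ∈ Kᶜ := fun h => hx0 ⟨h, fun h' => by rw [mem_ball_zero_iff] at h'; linarith⟩
    obtain ⟨Λ, t, ht, hΛ⟩ := hu hK0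
    rw [hK.isOpen_compl.nhdsWithin_eq hK0] at ht
    have hne : x0 ≠ 0 := norm_pos_iff.1 (hr.trans_le hin)
    have hP : ContinuousAt (clamp r) x0 :=
      ((continuous_norm.continuousAt.max continuousAt_const).div continuous_norm.continuousAt
        (norm_ne_zero_iff.2 hne)).smul continuousAt_id
    have h1 : ∀ᶠ x in nhds x0, clamp r x ∈ t := hP.eventually_mem (by rwa [clamp_eq_self hin])
    set T := {x : ℂ | clamp r x ∈ t} ∩ ball x0 (r / 2) with hT
    set B := |u x0 - c| + Λ * (2 * ‖x0‖ + 2 * r)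
    have hB0 : 0 ≤ B := by positivity
    refine ⟨Real.toNNReal (B / r + Λ * (1 + 4 * (2 * ‖x0‖ + r) / r)), T,
      mem_nhdsWithin_of_mem_nhds (Filter.inter_mem h1 (ball_mem_nhds _ (by positivity))), ?_⟩
    refine LipschitzOnWith.of_dist_le_mul fun x hx y hy => ?_
    rw [Real.coe_toNNReal _ (by positivity), Real.dist_eq, dist_eq_norm]
    have low : ∀ z ∈ T, r / 2 ≤ ‖z‖ ∧ ‖z‖ ≤ ‖x0‖ + r / 2 := fun z hz => by
      have h := mem_ball_iff_norm.1 hz.2
      constructor <;> linarith [norm_sub_norm_le x0 z, norm_sub_norm_le z x0, norm_sub_rev x0 z]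
    have hxne : x ≠ 0 := norm_pos_iff.1 (by linarith [(low x hx).1])
    have hyne : y ≠ 0 := norm_pos_iff.1 (by linarith [(low y hy).1])
    have hPd : ‖clamp r x - clamp r y‖ ≤ (1 + 4 * (2 * ‖x0‖ + r) / r) * ‖x - y‖ := by
      refine (clamp_sub_le hxne hyne).trans (mul_le_mul_of_nonneg_right ?_ (norm_nonneg _))
      refine add_le_add le_rfl ?_
      rw [div_le_div_iff₀ (norm_pos_iff.2 hxne) hr]
      have hm : max ‖x‖ r ≤ 2 * ‖x0‖ + r := max_le (by linarith [(low x hx).2, norm_nonneg x0])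
        (by linarith [norm_nonneg x0])
      nlinarith [(low x hx).1, hm, norm_nonneg x0]
    have hu' : ∀ p ∈ T, ∀ q ∈ T, |u (clamp r p) - u (clamp r q)|
        ≤ Λ * ‖clamp r p - clamp r q‖ := fun p hp q hq => by
      have := hΛ.dist_le_mul _ hp.1 _ hq.1
      rwa [Real.dist_eq, dist_eq_norm] at this
    have hyb : |u (clamp r y) - c| ≤ B := by
      have h0 := hu' y hy x0 ⟨by simpa [clamp_eq_self hin] using mem_of_mem_nhds ht,
        mem_ball_self (by positivity)⟩
      rw [clamp_eq_self hin] at h0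
      have hny : ‖clamp r y‖ ≤ ‖x0‖ + 2 * r := by
        rw [clamp, norm_smul, Real.norm_of_nonneg (by positivity),
          div_mul_cancel₀ _ (norm_ne_zero_iff.2 hyne)]
        exact max_le (by linarith [(low y hy).2]) (by linarith [norm_nonneg x0])
      have hd' : ‖clamp r y - x0‖ ≤ 2 * ‖x0‖ + 2 * r := (norm_sub_le _ _).trans (by linarith)
      calc |u (clamp r y) - c| ≤ |u (clamp r y) - u x0| + |u x0 - c| := abs_sub_le _ _ _
        _ ≤ Λ * (2 * ‖x0‖ + 2 * r) + |u x0 - c| := add_le_add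
            (h0.trans (mul_le_mul_of_nonneg_left hd' Λ.coe_nonneg)) le_rfl
        _ = B := by ring
    set s : ℂ → ℝ := fun z => min (‖z‖ / r) 1
    have hs0 : ∀ z, 0 ≤ s z := fun z => le_min (by positivity) zero_le_one
    have hs : |s x - s y| ≤ ‖x - y‖ / r := by
      refine (abs_min_sub_min_le_max _ _ _ _).trans ?_
      rw [sub_self, abs_zero, max_eq_left (abs_nonneg _), ← sub_div, abs_div, abs_of_pos hr]
      exact div_le_div_of_nonneg_right (abs_norm_sub_norm_le x y) hr.le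
    calc |cone u r c x - cone u r c y|
        = |s x * (u (clamp r x) - u (clamp r y)) + (s x - s y) * (u (clamp r y) - c)| := by
          simp only [cone, s]; congr 1; ring
      _ ≤ 1 * (Λ * ((1 + 4 * (2 * ‖x0‖ + r) / r) * ‖x - y‖)) + ‖x - y‖ / r * B := by
          refine (abs_add_le _ _).trans (add_le_add ?_ ?_)
          · rw [abs_mul, abs_of_nonneg (hs0 x)]
            exact mul_le_mul (min_le_right _ _)
              ((hu' x hx y hy).trans (mul_le_mul_of_nonneg_left hPd Λ.coe_nonneg))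
              (abs_nonneg _) zero_le_one
          · rw [abs_mul]
            exact mul_le_mul hs hyb (abs_nonneg _) (by positivity)
      _ = _ := by ring

lemma cone_fderiv_le (hK : IsClosed K) (hC1 : ContDiffOn ℝ 1 u Kᶜ) (hr : 0 < r)
    (hfree : sphere (0 : ℂ) r ⊆ Kᶜ) (c : ℝ) {x : ℂ} (hx : x ∈ ball (0 : ℂ) r) (hx0 : x ≠ 0) :
    ‖fderiv ℝ (cone u r c) x‖ ^ 2
      ≤ (u (onCircle r x) - c) ^ 2 / r ^ 2 + ‖fderiv ℝ u (onCircle r x)‖ ^ 2 := by
  set y := onCircle r x
  have hxp : 0 < ‖x‖ := norm_pos_iff.2 hx0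
  have hyK : y ∈ Kᶜ := hfree (mem_sphere_zero_iff_norm.2 (norm_onCircle hr hx0))
  have hud := ((hC1.contDiffAt (hK.isOpen_compl.mem_nhds hyK)).differentiableAt
    (by norm_num)).hasFDerivAt
  set e := ‖x‖⁻¹ • innerSL ℝ x
  have hn : HasFDerivAt (fun z : ℂ => ‖z‖) e x := by
    have h1 := (hasStrictFDerivAt_norm_sq x).hasFDerivAt.sqrt (pow_ne_zero 2 hxp.ne')
    refine (h1.congr_of_eventuallyEq
      (Filter.Eventually.of_forall fun z => (Real.sqrt_sq (norm_nonneg z)).symm)).congr_fderiv ?_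
    ext z
    simp only [e, smul_apply, smul_eq_mul, Real.sqrt_sq (norm_nonneg x), nsmul_eq_mul, Nat.cast_ofNat]
    field_simp
  have hinv : HasFDerivAt (fun z : ℂ => r / ‖z‖) (r • ((-(‖x‖ ^ 2)⁻¹) • e)) x := by
    have := ((hasDerivAt_inv hxp.ne').comp_hasFDerivAt x hn).const_mul r
    simpa [div_eq_mul_inv, Function.comp_def] using this
  have hy : HasFDerivAt (onCircle r) _ x := hinv.smul (hasFDerivAt_id x)
  have hF : HasFDerivAt (fun z => c + ‖z‖ / r * (u (onCircle r z) - c)) _ x :=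
    ((hn.mul_const r⁻¹).mul ((hud.comp x hy).sub_const c)).const_add c
  have heq : cone u r c =ᶠ[nhds x] fun z => c + ‖z‖ / r * (u (onCircle r z) - c) := by
    filter_upwards [isOpen_ball.mem_nhds hx] with z hz
    exact cone_eq_inner hr (mem_ball_zero_iff.1 hz).le
  rw [heq.fderiv_eq, hF.fderiv]
  set G := u y - c
  set g := ‖fderiv ℝ u y‖
  have hb : ∀ D : ℂ →L[ℝ] ℝ, (∀ z, |D z| ≤ √(G ^ 2 / r ^ 2 + g ^ 2) * ‖z‖) →
      ‖D‖ ^ 2 ≤ G ^ 2 / r ^ 2 + g ^ 2 := fun D hD => by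
    have := pow_le_pow_left₀ (norm_nonneg D)
      (D.opNorm_le_bound (Real.sqrt_nonneg _) fun z => by simpa using hD z) 2
    rwa [Real.sq_sqrt (by positivity)] at this
  refine hb _ fun z => ?_
  set t := ‖x‖⁻¹ * ⟪x, z⟫
  set z' : ℂ := z - t • (‖x‖⁻¹ • x)
  have hsum : t ^ 2 + ‖z'‖ ^ 2 = ‖z‖ ^ 2 := by
    simp only [z', t, norm_sub_sq_real, norm_smul, inner_smul_right, Real.norm_eq_abs,
      real_inner_comm z x]
    rw [mul_pow, mul_pow, sq_abs, abs_inv, abs_norm]
    field_simp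
    ring
  refine le_trans (le_of_eq (congrArg abs (?_ : _ = t * (G / r) + fderiv ℝ u y z'))) ?_
  · have hz : (‖x‖ / r) • ((r / ‖x‖) • z + (r * (-(‖x‖ ^ 2)⁻¹ * (‖x‖⁻¹ * ⟪x, z⟫))) • x)
        = z' := by
      simp only [z', t, smul_add, smul_smul, sub_eq_add_neg, ← neg_smul]
      congr 1
      · rw [show ‖x‖ / r * (r / ‖x‖) = 1 by field_simp, one_smul]
      · congr 1; field_simp
    simp only [G, t, e, y, add_apply, smul_apply, smul_eq_mul, ContinuousLinearMap.comp_apply,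
      ContinuousLinearMap.smulRight_apply, innerSL_apply_apply,
      Function.comp_apply, ContinuousLinearMap.id_apply]
    rw [← hz, map_smul, smul_eq_mul]
    simp only [map_add, map_smul, smul_eq_mul]
    ring
  calc |t * (G / r) + fderiv ℝ u y z'| ≤ |t| * |G / r| + g * ‖z'‖ :=
        (abs_add_le _ _).trans (add_le_add (abs_mul _ _).le
          (by simpa using (fderiv ℝ u y).le_opNorm z'))
    _ ≤ √(G ^ 2 / r ^ 2 + g ^ 2) * ‖z‖ := by
        rw [← Real.sqrt_sq (norm_nonneg z), ← Real.sqrt_mul (by positivity)]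
        refine Real.le_sqrt_of_sq_le ?_
        rw [← hsum, show G ^ 2 / r ^ 2 = |G / r| ^ 2 by rw [sq_abs, div_pow]]
        rw [← sq_abs t]
        nlinarith [sq_nonneg (|t| * g - |G / r| * ‖z'‖)]

end Vale.Agent.P128
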