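import Vale.Agent.P128.Defs

/-!
# P128: removing the singular set by a cut-off when the complement is connected
-/

open Set Metric MeasureTheory Real
open scoped ENNReal

namespace Vale.Agent.P128

/-- Cut-off equal to one on the disk of radius `a`, zero outside the disk of radius `2 a`. -/
noncomputable def zeta (a : ℝ) (x : ℂ) : ℝ := smoothTransition ((4 - ‖x‖ ^ 2 / a ^ 2) / 3)

lemma contDiff_zeta (a : ℝ) : ContDiff ℝ 1 (zeta a) :=
  (smoothTransition.contDiff (n := 1)).comp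
    ((contDiff_const.sub ((contDiff_norm_sq ℝ).div_const _)).div_const 3)

lemma zeta_eq_one {a : ℝ} (ha : 0 < a) {x : ℂ} (hx : ‖x‖ ≤ a) : zeta a x = 1 := by
  refine smoothTransition.one_of_one_le ?_
  have : ‖x‖ ^ 2 / a ^ 2 ≤ 1 := (div_le_one (by positivity)).2 (by gcongr)
  linarith

lemma zeta_eq_zero {a : ℝ} (ha : 0 < a) {x : ℂ} (hx : 2 * a ≤ ‖x‖) : zeta a x = 0 := by
  refine smoothTransition.zero_of_nonpos ?_
  have : 4 ≤ ‖x‖ ^ 2 / a ^ 2 := (le_div_iff₀ (by positivity)).2 (by nlinarith)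
  linarith

lemma fderiv_zeta : ∃ S : ℝ, 0 ≤ S ∧ ∀ a : ℝ, 0 < a → ∀ x : ℂ,
    ‖fderiv ℝ (zeta a) x‖ ≤ S / a := by
  have hc : Continuous (deriv smoothTransition) :=
    (smoothTransition.contDiff (n := 1)).continuous_deriv le_rfl
  obtain ⟨S0, hS0⟩ :=
    isCompact_Icc.exists_bound_of_continuousOn (s := Icc (0 : ℝ) (4 / 3)) hc.continuousOn
  refine ⟨2 * max S0 0, by positivity, fun a ha x => ?_⟩
  by_cases hx : ‖x‖ ≤ 2 * a
  swap
  · have he : zeta a =ᶠ[nhds x] fun _ => (0 : ℝ) := by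
      filter_upwards [(isOpen_lt continuous_const continuous_norm).mem_nhds (not_le.1 hx)] with y hy
      exact zeta_eq_zero ha (le_of_lt hy)
    rw [he.fderiv_eq, fderiv_fun_const, Pi.zero_apply, norm_zero]
    positivity
  have h1 : HasFDerivAt (fun y : ℂ => ‖y‖ ^ 2) (2 • innerSL ℝ x) x :=
    (hasStrictFDerivAt_norm_sq x).hasFDerivAt
  have h2 := ((h1.mul_const (a ^ 2)⁻¹).const_sub 4).mul_const (3 : ℝ)⁻¹
  have h3 : HasDerivAt smoothTransition
      (deriv smoothTransition ((4 - ‖x‖ ^ 2 * (a ^ 2)⁻¹) * (3 : ℝ)⁻¹))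
      ((4 - ‖x‖ ^ 2 * (a ^ 2)⁻¹) * (3 : ℝ)⁻¹) :=
    ((smoothTransition.contDiff (n := 1)).differentiable (by norm_num) _).hasDerivAt
  have h4 := h3.comp_hasFDerivAt x h2
  have e : zeta a = smoothTransition ∘ fun y : ℂ => (4 - ‖y‖ ^ 2 * (a ^ 2)⁻¹) * (3 : ℝ)⁻¹ := by
    funext y; simp [zeta, div_eq_mul_inv]
  rw [e, h4.fderiv]
  have hmem : (4 - ‖x‖ ^ 2 * (a ^ 2)⁻¹) * (3 : ℝ)⁻¹ ∈ Icc (0 : ℝ) (4 / 3) := by
    have h5 : ‖x‖ ^ 2 * (a ^ 2)⁻¹ ≤ 4 := by
      rw [← div_eq_mul_inv, div_le_iff₀ (by positivity)]; nlinarith [norm_nonneg x]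
    have h6 : 0 ≤ ‖x‖ ^ 2 * (a ^ 2)⁻¹ := by positivity
    constructor <;> linarith
  calc ‖_‖ ≤ max S0 0 * ((3 : ℝ)⁻¹ * ((a ^ 2)⁻¹ * (2 * ‖x‖))) := by
        rw [norm_smul, norm_smul, norm_neg, norm_smul]
        refine mul_le_mul ((hS0 _ hmem).trans (le_max_left _ _)) ?_ (by positivity) (by positivity)
        rw [Real.norm_of_nonneg (by norm_num : (0 : ℝ) ≤ (3 : ℝ)⁻¹),
          Real.norm_of_nonneg (by positivity : (0 : ℝ) ≤ (a ^ 2)⁻¹)]
        gcongr
        refine (norm_nsmul_le).trans ?_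
        rw [innerSL_apply_norm]; norm_num
    _ ≤ max S0 0 * ((3 : ℝ)⁻¹ * ((a ^ 2)⁻¹ * (2 * (2 * a)))) := by gcongr
    _ ≤ 2 * max S0 0 / a := by
        rw [le_div_iff₀ ha]
        field_simp
        nlinarith [le_max_right S0 0]

/-- With connected complement the energy in a disk is bounded by the squared oscillation. -/
lemma energy_le_osc : ∃ A : ℝ, 0 ≤ A ∧ ∀ (u : ℂ → ℝ) (K : Set ℂ), IsGlobalMinimizer u K →
    IsPreconnected Kᶜ → ∀ a c M : ℝ, 0 < a → 0 ≤ M →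
      (∀ x ∈ ball (0 : ℂ) (2 * a), x ∉ K → |u x - c| ≤ M) →
      msEnergy u K (ball 0 a) ≤ ENNReal.ofReal (A * M ^ 2) := by
  obtain ⟨S, hS, hbd⟩ := fderiv_zeta
  refine ⟨72 * S ^ 2 * π, by positivity, fun u K hu hconn a c M ha hM hosc => ?_⟩
  obtain ⟨hK, hC1, hfin, hmin⟩ := hu
  set ζ := zeta a
  set L := K \ ball 0 a
  set v : ℂ → ℝ := fun x => c + (1 - ζ x ^ 2) * (u x - c)
  have hin : ∀ x ∈ ball (0 : ℂ) a, v =ᶠ[nhds x] fun _ => c := fun x hx => by
    filter_upwards [isOpen_ball.mem_nhds hx] with y hy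
    simp [v, ζ, zeta_eq_one ha (mem_ball_zero_iff.1 hy).le]
  have hLc : IsClosed L := hK.sdiff isOpen_ball
  have hv : ContDiffOn ℝ 1 v Lᶜ := by
    intro x hx
    by_cases h : x ∈ ball (0 : ℂ) a
    · exact (contDiffAt_const.congr_of_eventuallyEq (hin x h)).contDiffWithinAt
    · have hux := hC1.contDiffAt (hK.isOpen_compl.mem_nhds fun h' => hx ⟨h', h⟩)
      exact (contDiffAt_const.add ((contDiffAt_const.sub ((contDiff_zeta a).contDiffAt.pow 2)).mul
        (hux.sub contDiffAt_const))).contDiffWithinAt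
  have hmin' := hmin 0 (3 * a) v L (closedBall 0 (2 * a)) hLc
    (locallyLipschitzOn_of_contDiffOn hLc.isOpen_compl hv) (isCompact_closedBall _ _)
    (closedBall_subset_ball (by linarith))
    (by
      ext y
      simp only [L, mem_sdiff, mem_closedBall_zero_iff, mem_ball_zero_iff]
      constructor
      · exact fun h => ⟨h.1.1, h.2⟩
      · exact fun h => ⟨⟨h.1, fun h' => h.2 (by linarith)⟩, h.2⟩)
    (fun y hy _ => by
      rw [mem_closedBall_zero_iff, not_le] at hy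
      simp [v, ζ, zeta_eq_zero ha hy.le])
    (fun p q hp hq hpq => absurd
      (hconn.subset_connectedComponentIn (fun h => hp (Or.inr h)) subset_rfl
        (fun h => hq (Or.inr h))) hpq)
  have hfin' := hfin 0 (3 * a)
  unfold msEnergy at hmin' hfin' ⊢
  set O := (ball (0 : ℂ) (3 * a) \ K) \ ball 0 a
  have hOm : MeasurableSet O :=
    (measurableSet_ball.diff hK.measurableSet).diff measurableSet_ball
  have hAm : MeasurableSet (ball (0 : ℂ) a \ K) := measurableSet_ball.diff hK.measurableSet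
  have hU : ball (0 : ℂ) (3 * a) \ K = (ball 0 a \ K) ∪ O := by
    ext y
    simp only [O, mem_sdiff, mem_union, mem_ball_zero_iff]
    constructor
    · intro h; by_cases h' : ‖y‖ < a
      · exact Or.inl ⟨h', h.2⟩
      · exact Or.inr ⟨h, h'⟩
    · rintro (h | h)
      · exact ⟨by linarith [h.1], h.2⟩
      · exact h.1
  have hV : ball (0 : ℂ) (3 * a) \ L = ball 0 a ∪ O := by
    ext y
    simp only [L, O, mem_sdiff, mem_union, mem_ball_zero_iff, not_and, not_not]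
    constructor
    · intro h; by_cases h' : ‖y‖ < a
      · exact Or.inl h'
      · exact Or.inr ⟨⟨h.1, fun hk => h' (h.2 hk)⟩, h'⟩
    · rintro (h | h)
      · exact ⟨by linarith, fun _ => h⟩
      · exact ⟨h.1.1, fun hk => absurd hk h.1.2⟩
  have hH : μH[1] (K ∩ ball (0 : ℂ) (3 * a))
      = μH[1] (K ∩ ball (0 : ℂ) a) + μH[1] (L ∩ ball (0 : ℂ) (3 * a)) := by
    rw [← measure_inter_add_sdiff (μ := μH[1]) (K ∩ ball (0 : ℂ) (3 * a))
      (measurableSet_ball (x := (0 : ℂ)) (ε := a)), inter_assoc,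
      inter_eq_right.2 (ball_subset_ball (by linarith : a ≤ 3 * a))]
    congr 2
    ext y; simp only [L, mem_sdiff, mem_inter_iff]; tauto
  rw [hU, lintegral_union hOm (disjoint_left.2 fun y h h' => h'.2 h.1),
    hV, lintegral_union hOm (disjoint_left.2 fun y h h' => h'.2 h), hH] at hmin'
  rw [hU, lintegral_union hOm (disjoint_left.2 fun y h h' => h'.2 h.1), hH] at hfin'
  have h0 : ∫⁻ x in ball (0 : ℂ) a, ENNReal.ofReal (‖fderiv ℝ v x‖ ^ 2) = 0 := by
    rw [← lintegral_zero (μ := volume.restrict (ball (0 : ℂ) a))]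
    refine setLIntegral_congr_fun measurableSet_ball fun x hx => ?_
    simp [(hin x hx).fderiv_eq]
  rw [h0, zero_add] at hmin'
  have hpt : ∀ x ∈ O, ENNReal.ofReal (‖fderiv ℝ v x‖ ^ 2)
      ≤ ENNReal.ofReal (‖fderiv ℝ u x‖ ^ 2) + ENNReal.ofReal (8 * M ^ 2 * (S / a) ^ 2) := by
    intro x hx
    have hud : DifferentiableAt ℝ u x :=
      (hC1.contDiffAt (hK.isOpen_compl.mem_nhds hx.1.2)).differentiableAt (by norm_num)
    have hζd : HasFDerivAt ζ (fderiv ℝ ζ x) x :=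
      (((contDiff_zeta a).differentiable (by norm_num)) x).hasFDerivAt
    have hd : HasFDerivAt v _ x :=
      (((hζd.pow 2).const_sub 1).mul (hud.hasFDerivAt.sub_const c)).const_add c
    rw [← ENNReal.ofReal_add (sq_nonneg _) (by positivity)]
    refine ENNReal.ofReal_le_ofReal ?_
    set g := ‖fderiv ℝ u x‖
    set z := ζ x
    have hg : 0 ≤ g := norm_nonneg _
    have hz0 : 0 ≤ z := smoothTransition.nonneg _
    have hz1 : z ≤ 1 := smoothTransition.le_one _
    have hw : |u x - c| * ‖fderiv ℝ ζ x‖ ≤ M * (S / a) := by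
      by_cases h2 : x ∈ ball (0 : ℂ) (2 * a)
      · exact mul_le_mul (hosc x h2 hx.1.2) (hbd a ha x) (norm_nonneg _) hM
      · have hz' : ∀ᶠ y in nhdsWithin x {y : ℂ | 2 * a ≤ ‖y‖}, ζ y = 0 :=
          eventually_nhdsWithin_of_forall fun y hy => zeta_eq_zero ha hy
        have hz0' : ζ x = 0 := zeta_eq_zero ha (by simpa using h2)
        have hlm : IsLocalMin ζ x :=
          Filter.Eventually.of_forall fun y => hz0'.le.trans (smoothTransition.nonneg _)
        rw [hlm.fderiv_eq_zero, norm_zero, mul_zero]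
        positivity
    have hn : ‖fderiv ℝ v x‖ ≤ (1 - z ^ 2) * g + 2 * z * (M * (S / a)) := by
      rw [hd.fderiv, add_comm]
      refine (norm_add_le _ _).trans ?_
      rw [add_comm]
      refine add_le_add ?_ ?_
      · rw [norm_smul, Real.norm_of_nonneg (by nlinarith)]
      · simp only [norm_smul, norm_neg, Real.norm_eq_abs, nsmul_eq_mul, Nat.cast_ofNat,
          Nat.add_one_sub_one, pow_one, abs_mul, abs_two]
        rw [abs_of_nonneg hz0]
        nlinarith [mul_le_mul_of_nonneg_left hw hz0]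
    refine (pow_le_pow_left₀ (norm_nonneg _) hn 2).trans ?_
    set q := M * (S / a)
    have hq : 0 ≤ q := by positivity
    rw [show 8 * M ^ 2 * (S / a) ^ 2 = 8 * q ^ 2 by ring]
    have hzz : z ^ 2 ≤ 1 := pow_le_one₀ hz0 hz1
    nlinarith [sq_nonneg (z * g - 2 * q), sq_nonneg q, mul_nonneg hz0 (mul_nonneg hg hq),
      mul_nonneg (sq_nonneg z) (sq_nonneg g), mul_nonneg (pow_nonneg hz0 3) (mul_nonneg hg hq),
      mul_nonneg (mul_nonneg (sq_nonneg z) (sq_nonneg g)) (by linarith : (0 : ℝ) ≤ 1 - z ^ 2),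
      mul_nonneg (sq_nonneg q) (by linarith : (0 : ℝ) ≤ 1 - z ^ 2)]
  set IO := ∫⁻ x in O, ENNReal.ofReal (‖fderiv ℝ u x‖ ^ 2)
  have hIv : ∫⁻ x in O, ENNReal.ofReal (‖fderiv ℝ v x‖ ^ 2)
      ≤ IO + ENNReal.ofReal (8 * M ^ 2 * (S / a) ^ 2) * volume (ball (0 : ℂ) (3 * a)) := by
    refine (setLIntegral_mono' hOm hpt).trans ?_
    rw [lintegral_add_left (((measurable_fderiv ℝ u).norm.pow_const 2).ennreal_ofReal),
      setLIntegral_const]
    gcongr
    exact fun y hy => hy.1.1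
  have hvol : ENNReal.ofReal (8 * M ^ 2 * (S / a) ^ 2) * volume (ball (0 : ℂ) (3 * a))
      = ENNReal.ofReal (72 * S ^ 2 * π * M ^ 2) := by
    rw [Complex.volume_ball, ← ENNReal.ofReal_pow (by positivity),
      show ((NNReal.pi : NNReal) : ℝ≥0∞) = ENNReal.ofReal π by
        simp [ENNReal.ofReal, Real.toNNReal_of_nonneg pi_pos.le]; rfl,
      ← ENNReal.ofReal_mul (by positivity), ← ENNReal.ofReal_mul (by positivity)]
    congr 1; field_simp; ring
  rw [hvol] at hIv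
  set EA := ∫⁻ x in ball (0 : ℂ) a \ K, ENNReal.ofReal (‖fderiv ℝ u x‖ ^ 2)
  set HA := μH[1] (K ∩ ball (0 : ℂ) a)
  set HO := μH[1] (L ∩ ball (0 : ℂ) (3 * a))
  have hne : IO + HO ≠ ⊤ := by
    obtain ⟨h1, h2⟩ := ENNReal.add_lt_top.1 hfin'
    exact ENNReal.add_ne_top.2 ⟨(ENNReal.add_lt_top.1 h1).2.ne, (ENNReal.add_lt_top.1 h2).2.ne⟩
  refine (ENNReal.add_le_add_iff_right hne).1 ?_
  calc EA + HA + (IO + HO) = EA + IO + (HA + HO) := by ring
    _ ≤ IO + ENNReal.ofReal (72 * S ^ 2 * π * M ^ 2) + HO := hmin'.trans (by gcongr)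
    _ = _ := by ring

end Vale.Agent.P128
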