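import Mathlib

/-!
# P128: global Mumford-Shah minimisers in the plane
-/

open Set Metric MeasureTheory
open scoped ENNReal

namespace Vale.Agent.P128

/-- Dirichlet energy off `K` plus length of `K`, inside `B`; the plane is `ℂ`. -/
noncomputable def msEnergy (u : ℂ → ℝ) (K B : Set ℂ) : ℝ≥0∞ :=
  (∫⁻ x in B \ K, ENNReal.ofReal (‖fderiv ℝ u x‖ ^ 2)) + μH[1] (K ∩ B)

/-- A global minimiser, tested against competitors that are locally Lipschitz off their singular
set, equal to `(u, K)` outside a compact subset of a disk, and keeping separated points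
separated. -/
def IsGlobalMinimizer (u : ℂ → ℝ) (K : Set ℂ) : Prop :=
  IsClosed K ∧ ContDiffOn ℝ 1 u Kᶜ ∧ (∀ x r, msEnergy u K (ball x r) < ⊤) ∧
  ∀ x r, ∀ v : ℂ → ℝ, ∀ L C : Set ℂ, IsClosed L → LocallyLipschitzOn Lᶜ v → IsCompact C →
    C ⊆ ball x r → L \ C = K \ C → (∀ y, y ∉ C → y ∉ K → v y = u y) →
    (∀ p q, p ∉ ball x r ∪ K → q ∉ ball x r ∪ K → q ∉ connectedComponentIn Kᶜ p →
      q ∉ connectedComponentIn Lᶜ p) →
    msEnergy u K (ball x r) ≤ msEnergy v L (ball x r)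

lemma locallyLipschitzOn_of_contDiffOn {f : ℂ → ℝ} {s : Set ℂ} (hs : IsOpen s)
    (hf : ContDiffOn ℝ 1 f s) : LocallyLipschitzOn s f := fun x hx => by
  obtain ⟨C, t, ht, hC⟩ := (hf.contDiffAt (hs.mem_nhds hx)).exists_lipschitzOnWith
  exact ⟨C, t, mem_nhdsWithin_of_mem_nhds ht, hC⟩

end Vale.Agent.P128
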