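import Vale.Agent.P128.Monotone

/-!
# P128: translation invariance and the universal gap for the length of the singular set
-/

open Set Metric MeasureTheory
open scoped ENNReal

namespace Vale.Agent.P128

lemma msEnergy_shift (u : ℂ → ℝ) (K B : Set ℂ) (hK : MeasurableSet K) (hB : MeasurableSet B)
    (a : ℂ) :
    msEnergy (fun y => u (y + a)) ((· + a) ⁻¹' K) ((· + a) ⁻¹' B) = msEnergy u K B := by
  unfold msEnergy
  congr 1
  · simp only [fderiv_comp_add_right, ← preimage_sdiff]
    exact (measurePreserving_add_right volume a).setLIntegral_comp_preimage (hB.diff hK)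
      ((measurable_fderiv ℝ u).norm.pow_const 2).ennreal_ofReal
  · rw [← preimage_inter]
    exact IsometryEquiv.hausdorffMeasure_preimage (IsometryEquiv.addRight a) 1 _

lemma ball_shift (x : ℂ) (r : ℝ) (a : ℂ) : ball x r = (· + a) ⁻¹' ball (x + a) r := by
  ext y
  simp

/-- Minimality is translation invariant. -/
lemma isGlobalMinimizer_shift {u : ℂ → ℝ} {K : Set ℂ} (hu : IsGlobalMinimizer u K) (a : ℂ) :
    IsGlobalMinimizer (fun y => u (y + a)) ((· + a) ⁻¹' K) := by
  obtain ⟨hK, hC1, hfin, hmin⟩ := hu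
  have hc : Continuous fun y : ℂ => y + a := by fun_prop
  refine ⟨hK.preimage hc, hC1.comp (contDiff_id.add contDiff_const).contDiffOn fun y hy => hy,
    fun x r => ?_, fun x r v L C hL hv hC hCB hLC hvu hsep => ?_⟩
  · rw [ball_shift x r a, msEnergy_shift u K _ hK.measurableSet measurableSet_ball]
    exact hfin _ _
  set L' := (· + -a) ⁻¹' L with hL'
  set C' := (· + -a) ⁻¹' C
  set v' : ℂ → ℝ := fun y => v (y + -a)
  have hc' : Continuous fun y : ℂ => y + -a := by fun_prop
  have hLm : IsClosed L' := hL.preimage hc'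
  have hback : ∀ s : Set ℂ, (· + a) ⁻¹' ((· + -a) ⁻¹' s) = s := fun s => by
    ext y; simp
  have hvv : (fun y => v' (y + a)) = v := funext fun y => by simp [v']
  have hv' : LocallyLipschitzOn L'ᶜ v' := by
    intro y hy
    obtain ⟨Λ, t, ht, hΛ⟩ := hv (show y + -a ∈ Lᶜ from hy)
    refine ⟨Λ, (· + -a) ⁻¹' t, ?_, fun p hp q hq => ?_⟩
    · exact (hc'.continuousWithinAt.tendsto_nhdsWithin fun z hz => hz) ht
    · simpa [edist_add_right] using hΛ hp hq
  have hcc : ∀ (s : Set ℂ) (p q : ℂ), p ∈ (· + a) ⁻¹' s →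
      (q ∈ connectedComponentIn ((· + a) ⁻¹' s) p ↔ q + a ∈ connectedComponentIn s (p + a)) := by
    intro s p q hp
    have h := (Homeomorph.addRight a).image_connectedComponentIn hp
    simp only [Homeomorph.coe_addRight] at h
    rw [image_preimage_eq s (add_right_surjective a)] at h
    rw [← h, (add_left_injective a).mem_set_image]
  have key := hmin (x + a) r v' L' C' hLm hv'
    ((Homeomorph.addRight (-a)).isCompact_preimage.2 hC)
    (fun y hy => by
      have h := hCB hy
      rw [mem_ball, ← dist_add_right _ _ a, neg_add_cancel_right] at h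
      exact mem_ball.2 h)
    (by
      rw [← preimage_sdiff, hLC, preimage_sdiff]
      ext y; simp [C'])
    (fun y h1 h2 => by
      have := hvu (y + -a) h1 (by simpa using h2)
      simpa [v'] using this)
    (fun p q hp hq hpq hq' => by
      have hpK : p ∉ K := fun h => hp (Or.inr h)
      have hqK : q ∉ K := fun h => hq (Or.inr h)
      have hball : ∀ z, z ∉ ball (x + a) r ∪ K → z + -a ∉ ball x r ∪ (· + a) ⁻¹' K := by
        intro z hz h
        refine hz (h.imp (fun h => ?_) (fun h => by simpa using h))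
        rw [mem_ball, ← dist_add_right _ _ a, neg_add_cancel_right] at h
        exact mem_ball.2 h
      have h1 := hsep (p + -a) (q + -a) (hball p hp) (hball q hq) (fun h => hpq (by
        rw [← preimage_compl, hcc Kᶜ _ _ (by simpa using hpK)] at h
        simpa using h))
      refine h1 ?_
      have hpL : p + -a ∈ Lᶜ := by
        intro h
        by_cases hC' : p + -a ∈ C
        · exact hball p hp (Or.inl (hCB hC'))
        · exact hball p hp (Or.inr ((Set.ext_iff.1 hLC (p + -a)).1 ⟨h, hC'⟩).1)
      have h2 : Lᶜ = (· + a) ⁻¹' L'ᶜ := by rw [preimage_compl, hback]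
      rw [h2, hcc L'ᶜ _ _ (by rwa [← h2])]
      simpa using hq')
  have e2 := msEnergy_shift v' L' _ hLm.measurableSet (measurableSet_ball (x := x + a) (ε := r)) a
  rw [hvv, hback, ← ball_shift] at e2
  rw [ball_shift x r a, msEnergy_shift u K _ hK.measurableSet measurableSet_ball, ← ball_shift, e2]
  exact key

/-- Universal gap: normalised energy at most `1/8` on arbitrarily large disks forces null `K`. -/
lemma length_zero_of_small_energy {u : ℂ → ℝ} {K : Set ℂ} (hu : IsGlobalMinimizer u K)
    (h : ∀ N : ℝ, ∃ r : ℝ, N < r ∧ (msEnergy u K (ball 0 r)).toReal ≤ r / 8) :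
    μH[1] K = 0 := by
  have hK : IsClosed K := hu.1
  have hfin := hu.2.2.1
  have hsmall : ∀ (x : ℂ) (a : ℝ), 0 < a →
      μH[1] (K ∩ ball x a) ≤ ENNReal.ofReal (3 / 8 * a) := by
    intro x a ha
    obtain ⟨r, hr, hE⟩ := h (3 * ‖x‖ + 3 * a)
    have hxn := norm_nonneg x
    have hsub : ball x (r - ‖x‖) ⊆ ball 0 r := ball_subset_ball' (by simp)
    have hmono : msEnergy u K (ball x (r - ‖x‖)) ≤ msEnergy u K (ball 0 r) := by
      unfold msEnergy; gcongr
    have hshift : ∀ t, msEnergy (fun y => u (y + x)) ((· + x) ⁻¹' K) (ball 0 t)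
        = msEnergy u K (ball x t) := fun t => by
      rw [ball_shift 0 t x, zero_add, msEnergy_shift u K _ hK.measurableSet measurableSet_ball]
    have hR : (msEnergy (fun y => u (y + x)) ((· + x) ⁻¹' K) (ball 0 (r - ‖x‖))).toReal
        ≤ 3 / 16 * (r - ‖x‖) := by
      rw [hshift]
      refine (ENNReal.toReal_mono (hfin 0 r).ne hmono).trans (hE.trans ?_)
      linarith
    have := energy_ratio (isGlobalMinimizer_shift hu x) ha (by linarith) (by norm_num) hR
    rw [hshift] at this
    have h2 : msEnergy u K (ball x a) ≤ ENNReal.ofReal (3 / 8 * a) :=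
      (ENNReal.le_ofReal_iff_toReal_le (hfin x a).ne (by positivity)).2 (by linarith)
    exact le_add_self.trans h2
  set c : ℝ≥0∞ := ENNReal.ofReal (3 / 4) with hcdef
  have hc0 : c ≠ 0 := by simp [c]
  have hct : c ≠ ⊤ := ENNReal.ofReal_ne_top
  have hle : c⁻¹ • (μH[1] : Measure ℂ).restrict K ≤ μH[1] := by
    refine Measure.le_hausdorffMeasure 1 _ 1 zero_lt_one fun s hs => ?_
    simp only [Measure.smul_apply, smul_eq_mul, Measure.restrict_apply' hK.measurableSet,
      ENNReal.rpow_one]
    rw [ENNReal.inv_mul_le_iff hc0 hct]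
    have hd : ediam s ≠ ⊤ := (hs.trans_lt ENNReal.one_lt_top).ne
    rcases eq_or_ne (ediam s) 0 with h0 | h0
    · have := Measure.nullSingletonClass_hausdorff ℂ one_pos
      have hsub : (s ∩ K).Subsingleton := (ediam_eq_zero_iff.1 h0).anti inter_subset_left
      rw [hsub.measure_zero]; exact bot_le
    · rcases s.eq_empty_or_nonempty with rfl | ⟨x, hx⟩
      · simp
      have hD : 0 < (ediam s).toReal := ENNReal.toReal_pos h0 hd
      have hsub : s ∩ K ⊆ K ∩ ball x (2 * (ediam s).toReal) := fun y hy => by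
        refine ⟨hy.2, ?_⟩
        rw [mem_ball, dist_edist]
        have := ENNReal.toReal_mono hd (edist_le_ediam_of_mem hy.1 hx)
        linarith
      refine (measure_mono hsub).trans ((hsmall x _ (by positivity)).trans_eq ?_)
      rw [hcdef]
      nth_rewrite 2 [← ENNReal.ofReal_toReal hd]
      rw [← ENNReal.ofReal_mul (by norm_num)]
      congr 1; ring
  have hb : ∀ n : ℕ, μH[1] (K ∩ ball (0 : ℂ) (n + 1)) = 0 := by
    intro n
    have h1 := hle (K ∩ ball (0 : ℂ) (n + 1))
    simp only [Measure.smul_apply, smul_eq_mul, Measure.restrict_apply' hK.measurableSet] at h1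
    rw [inter_right_comm, inter_self] at h1
    rw [ENNReal.inv_mul_le_iff hc0 hct] at h1
    set m := μH[1] (K ∩ ball (0 : ℂ) (n + 1))
    have hm : m ≠ ⊤ := (le_add_self.trans_lt (hfin 0 (n + 1))).ne
    have h2 := ENNReal.toReal_mono (ENNReal.mul_ne_top hct hm) h1
    rw [ENNReal.toReal_mul, hcdef, ENNReal.toReal_ofReal (by norm_num)] at h2
    have := ENNReal.toReal_nonneg (a := m)
    exact ((ENNReal.toReal_eq_zero_iff m).1 (by linarith)).resolve_right hm
  refine measure_mono_null (fun x hx => ?_) (measure_iUnion_null hb)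
  obtain ⟨n, hn⟩ := exists_nat_gt ‖x‖
  exact mem_iUnion.2 ⟨n, hx, mem_ball_zero_iff.2 (by linarith)⟩

end Vale.Agent.P128
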