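import Vale.Agent.P128.Defs

/-!
# P128: Liouville theorem for minimisers bounded on one side
-/

open Set Metric MeasureTheory Real
open scoped ENNReal

namespace Vale.Agent.P128

/-- The logarithmic cut-off equal to one where `log (1 + |x|²) ≤ L`. -/
noncomputable def cutoff (L : ℝ) (x : ℂ) : ℝ :=
  smoothTransition (2 - log (1 + ‖x‖ ^ 2) / L)

lemma contDiff_cutoff (L : ℝ) : ContDiff ℝ 1 (cutoff L) := by
  have h1 : ContDiff ℝ 1 fun x : ℂ => 1 + ‖x‖ ^ 2 :=
    contDiff_const.add (contDiff_norm_sq ℝ)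
  have h2 : ContDiff ℝ 1 fun x : ℂ => 2 - log (1 + ‖x‖ ^ 2) / L :=
    contDiff_const.sub ((h1.log fun x => by positivity).div_const L)
  exact (smoothTransition.contDiff (n := 1)).comp h2

lemma cutoff_fderiv : ∃ S : ℝ, 0 ≤ S ∧ ∀ L : ℝ, 0 < L → ∀ x : ℂ,
    log (1 + ‖x‖ ^ 2) ≤ 2 * L → ‖fderiv ℝ (cutoff L) x‖ ≤ S * ‖x‖ / ((1 + ‖x‖ ^ 2) * L) := by
  have hc : Continuous (deriv smoothTransition) :=
    (smoothTransition.contDiff (n := 1)).continuous_deriv le_rfl
  obtain ⟨S0, hS0⟩ := isCompact_Icc.exists_bound_of_continuousOn (s := Icc (0 : ℝ) 2) hc.continuousOn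
  refine ⟨2 * max S0 0, by positivity, fun L hL x hx => ?_⟩
  have hpos : 0 < 1 + ‖x‖ ^ 2 := by positivity
  have h1 : HasFDerivAt (fun y : ℂ => 1 + ‖y‖ ^ 2) (2 • innerSL ℝ x) x :=
    (hasStrictFDerivAt_norm_sq x).hasFDerivAt.const_add 1
  have h2 := (((h1.log hpos.ne').mul_const L⁻¹).const_sub 2)
  have h3 : HasDerivAt smoothTransition (deriv smoothTransition (2 - log (1 + ‖x‖ ^ 2) * L⁻¹))
      (2 - log (1 + ‖x‖ ^ 2) * L⁻¹) :=
    ((smoothTransition.contDiff (n := 1)).differentiable (by norm_num) _).hasDerivAt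
  have h4 := h3.comp_hasFDerivAt x h2
  have e : cutoff L = smoothTransition ∘ fun y : ℂ => 2 - log (1 + ‖y‖ ^ 2) * L⁻¹ := by
    funext y; simp [cutoff, div_eq_mul_inv]
  rw [e, h4.fderiv]
  have hlog : 0 ≤ log (1 + ‖x‖ ^ 2) := log_nonneg (by nlinarith [sq_nonneg ‖x‖])
  have hmem : 2 - log (1 + ‖x‖ ^ 2) * L⁻¹ ∈ Icc (0 : ℝ) 2 := by
    rw [← div_eq_mul_inv]
    constructor
    · rw [sub_nonneg, div_le_iff₀ hL]; linarith
    · linarith [div_nonneg hlog hL.le]
  calc ‖_‖ ≤ max S0 0 * (L⁻¹ * ((1 + ‖x‖ ^ 2)⁻¹ * (2 * ‖x‖))) := by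
        rw [norm_smul, norm_neg, norm_smul, norm_smul]
        refine mul_le_mul ((hS0 _ hmem).trans (le_max_left _ _)) ?_ (by positivity) (by positivity)
        rw [Real.norm_of_nonneg (by positivity : (0 : ℝ) ≤ L⁻¹),
          Real.norm_of_nonneg (by positivity : (0 : ℝ) ≤ (1 + ‖x‖ ^ 2)⁻¹)]
        gcongr
        refine (norm_nsmul_le).trans ?_
        rw [innerSL_apply_norm]; norm_num
    _ = 2 * max S0 0 * ‖x‖ / ((1 + ‖x‖ ^ 2) * L) := by field_simp

lemma integral_inv_sq (T : ℝ) (hT : 0 ≤ T) :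
    ∫⁻ x in closedBall (0 : ℂ) T, ENNReal.ofReal (1 / (1 + ‖x‖ ^ 2))
      = ENNReal.ofReal (volume.real (ball (0 : ℂ) 1) * log (1 + T ^ 2)) := by
  have hcont : Continuous fun x : ℂ => 1 / (1 + ‖x‖ ^ 2) :=
    continuous_const.div (by fun_prop) fun x => by positivity
  rw [← ofReal_integral_eq_lintegral_ofReal
    (hcont.continuousOn.integrableOn_compact (isCompact_closedBall _ _))
    (Filter.Eventually.of_forall fun x => by positivity)]
  congr 1
  have e : ∀ x : ℂ, (closedBall (0 : ℂ) T).indicator (fun x => 1 / (1 + ‖x‖ ^ 2)) x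
      = (Iic T).indicator (fun r : ℝ => 1 / (1 + r ^ 2)) ‖x‖ := fun x => by
    by_cases h : ‖x‖ ≤ T
    · rw [indicator_of_mem (mem_closedBall_zero_iff.2 h), indicator_of_mem (mem_Iic.2 h)]
    · rw [indicator_of_notMem (fun h' => h (mem_closedBall_zero_iff.1 h')),
        indicator_of_notMem (fun h' => h (mem_Iic.1 h'))]
  rw [← integral_indicator measurableSet_closedBall, integral_congr_ae (Filter.Eventually.of_forall e),
    integral_fun_norm_addHaar, Complex.finrank_real_complex]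
  have e2 : ∀ r : ℝ, r ^ (2 - 1) • (Iic T).indicator (fun r : ℝ => 1 / (1 + r ^ 2)) r
      = (Iic T).indicator (fun r : ℝ => r / (1 + r ^ 2)) r := fun r => by
    by_cases h : r ∈ Iic T
    · rw [indicator_of_mem h, indicator_of_mem h]; simp [div_eq_mul_inv]
    · rw [indicator_of_notMem h, indicator_of_notMem h]; simp
  simp only [e2]
  rw [setIntegral_indicator measurableSet_Iic, Ioi_inter_Iic,
    ← intervalIntegral.integral_of_le hT]
  have hd : ∀ r ∈ uIcc 0 T, HasDerivAt (fun s : ℝ => log (1 + s ^ 2) / 2) (r / (1 + r ^ 2)) r := by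
    intro r _
    have h1 : HasDerivAt (fun s : ℝ => 1 + s ^ 2) (2 * r) r := by
      simpa using (hasDerivAt_pow 2 r).const_add 1
    refine ((h1.log (by positivity)).div_const 2).congr_deriv ?_
    ring
  rw [intervalIntegral.integral_eq_sub_of_hasDerivAt hd
    (Continuous.intervalIntegrable (continuous_id.div (by fun_prop) fun r => by positivity) _ _)]
  simp only [nsmul_eq_mul, smul_eq_mul, ne_eq, OfNat.ofNat_ne_zero, not_false_eq_true, zero_pow,
    add_zero, log_one, zero_div, sub_zero]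
  push_cast
  ring

lemma zero_of_lt_log {L : ℝ} (hL : 0 < L) {x : ℂ} (hx : 2 * L ≤ log (1 + ‖x‖ ^ 2)) :
    cutoff L x = 0 := by
  refine smoothTransition.zero_of_nonpos ?_
  rw [sub_nonpos, le_div_iff₀ hL]; linarith

/-- Caccioppoli estimate for `log u` with the logarithmic cut-off, on a piece `Ω` of `Kᶜ`. -/
lemma energy_bound {u : ℂ → ℝ} {K : Set ℂ} (hu : IsGlobalMinimizer u K) {Ω : Set ℂ}
    (hΩ : IsOpen Ω) (hΩK : Ω ⊆ Kᶜ) (hΩc : IsOpen (Kᶜ \ Ω)) {σ m : ℝ} (hσ : |σ| = 1)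
    (hm : ∀ x ∈ Ω, m ≤ σ * u x) :
    ∃ A : ℝ, ∀ L : ℝ, 0 < L → ∀ r : ℝ, log (1 + r ^ 2) ≤ L →
      ∫⁻ x in ball (0 : ℂ) r ∩ Ω,
          ENNReal.ofReal (((σ * u x - m + 1)⁻¹ * ‖fderiv ℝ u x‖) ^ 2)
        ≤ ENNReal.ofReal (A / L) := by
  obtain ⟨hK, hC1, hfin, hmin⟩ := hu
  obtain ⟨S, hS, hbd⟩ := cutoff_fderiv
  refine ⟨16 * S ^ 2 * (2 * volume.real (ball (0 : ℂ) 1)), fun L hL r hr => ?_⟩
  set η := cutoff L
  set T := sqrt (exp (2 * L) - 1) with hT
  have hT0 : 0 ≤ T := sqrt_nonneg _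
  have hT2 : 1 + T ^ 2 = exp (2 * L) := by
    rw [hT, sq_sqrt (by linarith [one_le_exp (by positivity : (0 : ℝ) ≤ 2 * L)])]; ring
  have hin : ∀ x : ℂ, ‖x‖ ≤ T → log (1 + ‖x‖ ^ 2) ≤ 2 * L := fun x hx => by
    rw [← log_exp (2 * L), ← hT2]
    exact log_le_log (by positivity) (by nlinarith [norm_nonneg x])
  have hout : ∀ x : ℂ, T ≤ ‖x‖ → η x = 0 := fun x hx => zero_of_lt_log hL <| by
    rw [← log_exp (2 * L), ← hT2]
    exact log_le_log (by positivity) (by nlinarith)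
  set R := max (T + 1) r
  set w : ℂ → ℝ := fun x => (σ * u x - m + 1)⁻¹
  set v : ℂ → ℝ := fun x => u x + Ω.indicator (fun y => σ / 4 * η y ^ 2 * w y) x
  have hw : ∀ x ∈ Ω, 0 < w x ∧ w x ≤ 1 := fun x hx => by
    have h1 : 1 ≤ σ * u x - m + 1 := by linarith [hm x hx]
    exact ⟨inv_pos.2 (by linarith), inv_le_one_of_one_le₀ h1⟩
  have hηd : Differentiable ℝ η := (contDiff_cutoff L).differentiable (by norm_num)
  have hvin : ∀ x ∈ Ω, v =ᶠ[nhds x] fun y => u y + σ / 4 * η y ^ 2 * w y := fun x hx => by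
    filter_upwards [hΩ.mem_nhds hx] with y hy
    simp only [v, indicator_of_mem hy]
  have hvout : ∀ x ∈ Kᶜ \ Ω, v =ᶠ[nhds x] u := fun x hx => by
    filter_upwards [hΩc.mem_nhds hx] with y hy
    simp only [v, indicator_of_notMem hy.2, add_zero]
  have hv : ContDiffOn ℝ 1 v Kᶜ := by
    intro x hx
    have hux := hC1.contDiffAt (hK.isOpen_compl.mem_nhds hx)
    by_cases hxΩ : x ∈ Ω
    · have hne : σ * u x - m + 1 ≠ 0 := by linarith [hm x hxΩ]
      have hwd : ContDiffAt ℝ 1 w x :=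
        (((contDiffAt_const.mul hux).sub contDiffAt_const).add contDiffAt_const).inv hne
      exact ((hux.add ((contDiffAt_const.mul ((contDiff_cutoff L).contDiffAt.pow 2)).mul hwd))
        |>.congr_of_eventuallyEq (hvin x hxΩ)).contDiffWithinAt
    · exact (hux.congr_of_eventuallyEq (hvout x ⟨hx, hxΩ⟩)).contDiffWithinAt
  have hmin' := hmin 0 R v K (closedBall 0 T) hK (locallyLipschitzOn_of_contDiffOn hK.isOpen_compl hv) (isCompact_closedBall _ _)
    (closedBall_subset_ball (lt_of_lt_of_le (lt_add_one T) (le_max_left _ _))) rfl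
    (fun y hy _ => by
      rw [mem_closedBall_zero_iff, not_le] at hy
      by_cases hyΩ : y ∈ Ω
      · simp [v, hout y hy.le, hyΩ]
      · simp [v, hyΩ])
    (fun _ _ _ _ h => h)
  unfold msEnergy at hmin'
  have hfinR := hfin 0 R
  unfold msEnergy at hfinR
  have hHne : μH[1] (K ∩ ball (0 : ℂ) R) ≠ ⊤ :=
    ((ENNReal.add_lt_top).1 hfinR).2.ne
  have hle := (ENNReal.add_le_add_iff_right hHne).1 hmin'
  have hGne : ∫⁻ x in ball (0 : ℂ) R \ K, ENNReal.ofReal (‖fderiv ℝ u x‖ ^ 2) ≠ ⊤ :=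
    ((ENNReal.add_lt_top).1 hfinR).1.ne
  set g : ℂ → ℝ := fun x => ‖fderiv ℝ u x‖
  set h : ℂ → ℝ := fun x => ‖fderiv ℝ η x‖
  set P : ℂ → ℝ := Ω.indicator fun x => η x ^ 2 * (w x * g x) ^ 2 / 8
  have hP0 : ∀ x, 0 ≤ P x := fun x => indicator_nonneg (fun y _ => by positivity) x
  have hpt : ∀ x ∈ Kᶜ, ‖fderiv ℝ v x‖ ^ 2 + P x ≤ g x ^ 2 + 2 * h x ^ 2 := by
    intro x hx
    by_cases hxΩ : x ∈ Ω
    swap
    · have hP : P x = 0 := indicator_of_notMem hxΩ _
      rw [(hvout x ⟨hx, hxΩ⟩).fderiv_eq, hP, add_zero]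
      show g x ^ 2 ≤ _
      linarith [sq_nonneg (h x)]
    have hP : P x = η x ^ 2 * (w x * g x) ^ 2 / 8 := indicator_of_mem hxΩ _
    have hud : DifferentiableAt ℝ u x :=
      (hC1.contDiffAt (hK.isOpen_compl.mem_nhds hx)).differentiableAt (by norm_num)
    have hne : σ * u x - m + 1 ≠ 0 := by linarith [hm x hxΩ]
    have hdw : HasFDerivAt w (-(σ * w x ^ 2) • fderiv ℝ u x) x := by
      have h1 := (((hud.hasFDerivAt.const_mul σ).sub_const m).add_const 1)
      refine ((hasDerivAt_inv hne).comp_hasFDerivAt x h1).congr_fderiv ?_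
      rw [smul_smul]
      congr 1
      simp only [w, inv_pow]
      ring
    have hd : HasFDerivAt (fun y => u y + σ / 4 * η y ^ 2 * w y)
        ((1 - η x ^ 2 * w x ^ 2 / 4) • fderiv ℝ u x
          + (σ * (η x * w x) / 2) • fderiv ℝ η x) x := by
      refine (hud.hasFDerivAt.add
        ((((hηd x).hasFDerivAt.pow 2).const_mul (σ / 4)).mul hdw)).congr_fderiv ?_
      have hs : σ ^ 2 = 1 := by rw [← sq_abs, hσ]; norm_num
      ext z
      simp only [add_apply, smul_apply, smul_eq_mul, nsmul_eq_mul]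
      push_cast
      linear_combination (-(η x ^ 2) * w x ^ 2 / 4 * fderiv ℝ u x z) * hs
    have hη0 : 0 ≤ η x := smoothTransition.nonneg _
    have hη1 : η x ≤ 1 := smoothTransition.le_one _
    obtain ⟨hw0, hw1⟩ := hw x hxΩ
    have ht0 : 0 ≤ η x * w x := mul_nonneg hη0 hw0.le
    have ht1 : η x * w x ≤ 1 := mul_le_one₀ hη1 hw0.le hw1
    have hg0 : 0 ≤ g x := norm_nonneg _
    have hh0 : 0 ≤ h x := norm_nonneg _
    have hs1 : (η x * w x) ^ 2 ≤ 1 := pow_le_one₀ ht0 ht1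
    have hnorm : ‖fderiv ℝ v x‖
        ≤ (1 - (η x * w x) ^ 2 / 4) * g x + 1 / 2 * (η x * w x) * h x := by
      rw [(hvin x hxΩ).fderiv_eq, hd.fderiv]
      refine (norm_add_le _ _).trans (add_le_add ?_ ?_)
      · rw [norm_smul, ← mul_pow, Real.norm_of_nonneg (by linarith)]
      · rw [norm_smul, Real.norm_eq_abs, abs_div, abs_mul, hσ, abs_of_nonneg ht0, abs_two]
        exact le_of_eq (by ring)
    have h2 : ‖fderiv ℝ v x‖ ^ 2
        ≤ ((1 - (η x * w x) ^ 2 / 4) * g x + 1 / 2 * (η x * w x) * h x) ^ 2 :=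
      pow_le_pow_left₀ (norm_nonneg _) hnorm 2
    rw [hP]
    nlinarith [sq_nonneg (η x * w x * g x - 4 * h x),
      mul_nonneg (sq_nonneg (h x)) (by linarith : (0:ℝ) ≤ 1 - (η x * w x) ^ 2),
      mul_nonneg (mul_nonneg (sq_nonneg (η x * w x)) (sq_nonneg (g x)))
        (by linarith : (0:ℝ) ≤ 1 - (η x * w x) ^ 2),
      mul_nonneg (pow_nonneg ht0 3) (mul_nonneg hg0 hh0), sq_nonneg (h x)]
  have hmeas : MeasurableSet (ball (0 : ℂ) R \ K) := measurableSet_ball.diff hK.measurableSet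
  have hadd : (∫⁻ x in ball (0 : ℂ) R \ K, ENNReal.ofReal (g x ^ 2))
      + (∫⁻ x in ball (0 : ℂ) R \ K, ENNReal.ofReal (P x))
      ≤ (∫⁻ x in ball (0 : ℂ) R \ K, ENNReal.ofReal (g x ^ 2))
      + ∫⁻ x in ball (0 : ℂ) R \ K, ENNReal.ofReal (2 * h x ^ 2) := by
    have mg : Measurable fun x => ENNReal.ofReal (g x ^ 2) :=
      ((measurable_fderiv ℝ u).norm.pow_const 2).ennreal_ofReal
    refine (add_le_add_left hle _).trans ?_
    rw [← lintegral_add_left ((measurable_fderiv ℝ v).norm.pow_const 2).ennreal_ofReal,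
      ← lintegral_add_left mg]
    refine setLIntegral_mono' hmeas fun x hx => ?_
    rw [← ENNReal.ofReal_add (sq_nonneg _) (hP0 x),
      ← ENNReal.ofReal_add (sq_nonneg _) (by positivity)]
    exact ENNReal.ofReal_le_ofReal (hpt x hx.2)
  have hcomp := (ENNReal.add_le_add_iff_left hGne).1 hadd
  -- the right-hand side
  have hrhs : ∫⁻ x in ball (0 : ℂ) R \ K, ENNReal.ofReal (2 * h x ^ 2)
      ≤ ENNReal.ofReal (2 * S ^ 2 / L * (2 * volume.real (ball (0 : ℂ) 1))) := by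
    calc ∫⁻ x in ball (0 : ℂ) R \ K, ENNReal.ofReal (2 * h x ^ 2)
        ≤ ∫⁻ x in ball (0 : ℂ) R \ K, (closedBall (0 : ℂ) T).indicator
            (fun x => ENNReal.ofReal (2 * S ^ 2 / L ^ 2)
              * ENNReal.ofReal (1 / (1 + ‖x‖ ^ 2))) x := by
          refine setLIntegral_mono' hmeas fun x hx => ?_
          by_cases hxT : ‖x‖ ≤ T
          · rw [indicator_of_mem (mem_closedBall_zero_iff.2 hxT), ← ENNReal.ofReal_mul (by positivity)]
            refine ENNReal.ofReal_le_ofReal ?_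
            have h1 : h x ≤ S * ‖x‖ / ((1 + ‖x‖ ^ 2) * L) := hbd L hL x (hin x hxT)
            have h0 : 0 ≤ h x := norm_nonneg _
            refine (mul_le_mul_of_nonneg_left (pow_le_pow_left₀ h0 h1 2) (by norm_num)).trans ?_
            have hp : 0 < 1 + ‖x‖ ^ 2 := by positivity
            rw [show 2 * (S * ‖x‖ / ((1 + ‖x‖ ^ 2) * L)) ^ 2
              = 2 * S ^ 2 / L ^ 2 * (‖x‖ ^ 2 / (1 + ‖x‖ ^ 2) ^ 2) by field_simp]
            refine mul_le_mul_of_nonneg_left ?_ (by positivity)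
            rw [div_le_div_iff₀ (by positivity) hp]
            nlinarith [norm_nonneg x]
          · rw [indicator_of_notMem (fun h' => hxT (mem_closedBall_zero_iff.1 h'))]
            have : fderiv ℝ η x = 0 := by
              have he : η =ᶠ[nhds x] fun _ => (0 : ℝ) := by
                filter_upwards [(isClosed_closedBall (x := (0 : ℂ)) (ε := T)).isOpen_compl.mem_nhds
                  (fun h' => hxT (mem_closedBall_zero_iff.1 h'))] with y hy
                exact hout y (not_le.1 fun h' => hy (mem_closedBall_zero_iff.2 h')).le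
              rw [he.fderiv_eq, fderiv_fun_const]; rfl
            simp [h, this]
      _ ≤ ∫⁻ x, (closedBall (0 : ℂ) T).indicator
            (fun x => ENNReal.ofReal (2 * S ^ 2 / L ^ 2)
              * ENNReal.ofReal (1 / (1 + ‖x‖ ^ 2))) x := setLIntegral_le_lintegral _ _
      _ = _ := by
          rw [lintegral_indicator measurableSet_closedBall, lintegral_const_mul' _ _ ENNReal.ofReal_ne_top,
            integral_inv_sq T hT0, ← ENNReal.ofReal_mul (by positivity), hT2, log_exp]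
          congr 1
          field_simp
  have hsub : ball (0 : ℂ) r ∩ Ω ⊆ ball (0 : ℂ) R \ K :=
    fun x hx => ⟨ball_subset_ball (le_max_right _ _) hx.1, hΩK hx.2⟩
  calc ∫⁻ x in ball (0 : ℂ) r ∩ Ω, ENNReal.ofReal ((w x * g x) ^ 2)
      = 8 * ∫⁻ x in ball (0 : ℂ) r ∩ Ω, ENNReal.ofReal (P x) := by
        rw [← lintegral_const_mul' _ _ (by norm_num)]
        refine setLIntegral_congr_fun (measurableSet_ball.inter hΩ.measurableSet) fun x hx => ?_
        have h1 : η x = 1 := smoothTransition.one_of_one_le <| by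
          have hx' : ‖x‖ < r := mem_ball_zero_iff.1 hx.1
          have : log (1 + ‖x‖ ^ 2) / L ≤ 1 := by
            rw [div_le_one hL]
            exact (log_le_log (by positivity) (by nlinarith [norm_nonneg x])).trans hr
          linarith
        have hP : P x = η x ^ 2 * (w x * g x) ^ 2 / 8 := indicator_of_mem hx.2 _
        rw [hP, h1, show (8 : ℝ≥0∞) = ENNReal.ofReal 8 by simp, ← ENNReal.ofReal_mul (by norm_num)]
        congr 1; ring
    _ ≤ 8 * ∫⁻ x in ball (0 : ℂ) R \ K, ENNReal.ofReal (P x) := by gcongr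
    _ ≤ 8 * ENNReal.ofReal (2 * S ^ 2 / L * (2 * volume.real (ball (0 : ℂ) 1))) := by
        gcongr; exact hcomp.trans hrhs
    _ = _ := by
        rw [show (8 : ℝ≥0∞) = ENNReal.ofReal 8 by simp, ← ENNReal.ofReal_mul (by norm_num)]
        congr 1; ring

/-- A one-sided bound on a component forces zero gradient there. -/
lemma fderiv_eq_zero_of_bound {u : ℂ → ℝ} {K : Set ℂ} (hu : IsGlobalMinimizer u K)
    {p : ℂ} (hb : (∃ m, ∀ x ∈ connectedComponentIn Kᶜ p, m ≤ u x) ∨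
      ∃ M, ∀ x ∈ connectedComponentIn Kᶜ p, u x ≤ M) :
    ∀ x ∈ connectedComponentIn Kᶜ p, fderiv ℝ u x = 0 := by
  set Ω := connectedComponentIn Kᶜ p with hΩdef
  obtain ⟨σ, m, hσ, hm⟩ : ∃ σ m : ℝ, |σ| = 1 ∧ ∀ x ∈ Ω, m ≤ σ * u x := by
    rcases hb with ⟨m, hm⟩ | ⟨M, hM⟩
    · exact ⟨1, m, abs_one, fun x hx => by simpa using hm x hx⟩
    · exact ⟨-1, -M, by simp, fun x hx => by linarith [hM x hx]⟩
  have hK : IsClosed K := hu.1
  have hC1 := hu.2.1
  have hΩ : IsOpen Ω := hK.isOpen_compl.connectedComponentIn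
  have hΩK : Ω ⊆ Kᶜ := connectedComponentIn_subset _ _
  have hΩc : IsOpen (Kᶜ \ Ω) := by
    refine isOpen_iff_mem_nhds.2 fun y hy => Filter.mem_of_superset
      ((hK.isOpen_compl.connectedComponentIn (x := y)).mem_nhds (mem_connectedComponentIn hy.1))
      fun z hz => ⟨connectedComponentIn_subset _ _ hz, fun hzp => hy.2 ?_⟩
    rw [hΩdef, (connectedComponentIn_eq hzp).trans (connectedComponentIn_eq hz).symm]
    exact mem_connectedComponentIn hy.1
  obtain ⟨A, hA⟩ := energy_bound hu hΩ hΩK hΩc hσ hm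
  intro x hx
  set U := ball (0 : ℂ) (‖x‖ + 1) ∩ Ω
  have hxU : x ∈ U := ⟨mem_ball_zero_iff.2 (lt_add_one _), hx⟩
  have hUo : IsOpen U := isOpen_ball.inter hΩ
  have hpos : ∀ y ∈ U, 0 < σ * u y - m + 1 := fun y hy => by linarith [hm y hy.2]
  have hUK : U ⊆ Kᶜ := fun y hy => hΩK hy.2
  have hcont : ContinuousOn (fun y => ((σ * u y - m + 1)⁻¹ * ‖fderiv ℝ u y‖) ^ 2) U :=
    (((((continuousOn_const.mul (hC1.continuousOn.mono hUK)).sub continuousOn_const).add
      continuousOn_const).inv₀ (fun y hy => (hpos y hy).ne')).mul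
      (((hC1.continuousOn_fderiv_of_isOpen hK.isOpen_compl le_rfl).mono hUK).norm)).pow 2
  have hzero : ∫⁻ y in U, ENNReal.ofReal (((σ * u y - m + 1)⁻¹ * ‖fderiv ℝ u y‖) ^ 2) = 0 := by
    have ht : Filter.Tendsto (fun L : ℝ => ENNReal.ofReal (A / L)) Filter.atTop (nhds 0) := by
      simpa using ENNReal.tendsto_ofReal (tendsto_const_nhds.div_atTop Filter.tendsto_id)
    refine le_antisymm (ge_of_tendsto ht ?_) bot_le
    filter_upwards [Filter.eventually_gt_atTop 0,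
      Filter.eventually_ge_atTop (log (1 + (‖x‖ + 1) ^ 2))] with L h1 h2 using hA L h1 _ h2
  have hae : (fun y => ((σ * u y - m + 1)⁻¹ * ‖fderiv ℝ u y‖) ^ 2)
      =ᵐ[volume.restrict U] fun _ => (0 : ℝ) := by
    filter_upwards [(lintegral_eq_zero_iff'
      (hcont.aemeasurable hUo.measurableSet).ennreal_ofReal).1 hzero] with y hy
    exact le_antisymm (ENNReal.ofReal_eq_zero.1 hy) (sq_nonneg _)
  have h0 := Measure.eqOn_open_of_ae_eq hae hUo hcont continuousOn_const hxU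
  simpa [(hpos x hxU).ne'] using h0

end Vale.Agent.P128
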