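import Vale.Agent.P128.Circle
import Vale.Agent.P071.AnnSector.OneDim

/-!
# P128: monotonicity of small normalised energy
-/

open Set Metric MeasureTheory Real intervalIntegral
open scoped ENNReal NNReal

namespace Vale.Agent.P128

lemma circleMap_eq_symm (ρ θ : ℝ) : circleMap 0 ρ θ = Complex.polarCoord.symm (ρ, θ) := by
  simp [circleMap, Complex.exp_mul_I]

lemma norm_circleMap_of_nonneg {ρ : ℝ} (hρ : 0 ≤ ρ) (θ : ℝ) : ‖circleMap 0 ρ θ‖ = ρ := by
  rw [norm_circleMap_zero, abs_of_nonneg hρ]

/-- Polar coordinates as an iterated integral. -/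
lemma lintegral_polar {f : ℂ → ℝ≥0∞} (hf : Measurable f) :
    ∫⁻ x, f x
      = ∫⁻ ρ in Ioi (0 : ℝ), ∫⁻ θ in Ioo (-π) π, ENNReal.ofReal ρ * f (circleMap 0 ρ θ) := by
  rw [← Complex.lintegral_comp_polarCoord_symm f]
  simp only [smul_eq_mul]
  rw [polarCoord_target, Measure.volume_eq_prod, setLIntegral_prod]
  · refine lintegral_congr fun ρ => lintegral_congr fun θ => ?_
    rw [circleMap_eq_symm]
  refine (ENNReal.measurable_ofReal.comp measurable_fst).mul (hf.comp ?_) |>.aemeasurable
  rw [show (⇑Complex.polarCoord.symm) = fun p : ℝ × ℝ =>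
    (p.1 : ℂ) * (Real.cos p.2 + Real.sin p.2 * Complex.I) from funext Complex.polarCoord_symm_apply]
  fun_prop

/-- Wirtinger inequality for periodic functions, about some constant. -/
lemma periodic_wirtinger {f f' : ℝ → ℝ} (hd : ∀ t, HasDerivAt f (f' t) t) (hf' : Continuous f')
    (hp : Function.Periodic f (2 * π)) :
    ∃ c : ℝ, ∫ t in (-π)..π, (f t - c) ^ 2 ≤ ∫ t in (-π)..π, f' t ^ 2 := by
  have hf : Continuous f := continuous_iff_continuousAt.2 fun t => (hd t).continuousAt
  obtain ⟨t0, ht0⟩ : ∃ t0, f (t0 + π) = f t0 := by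
    set D : ℝ → ℝ := fun t => f (t + π) - f t
    have hD : Continuous D := by fun_prop
    have hDπ : D π = -D 0 := by
      simp only [D, zero_add]
      rw [show π + π = 0 + 2 * π by ring, hp]
      ring
    obtain ⟨t0, -, ht0⟩ := intermediate_value_uIcc (a := 0) (b := π) hD.continuousOn
      (show (0 : ℝ) ∈ uIcc (D 0) (D π) by
        rw [hDπ]
        rcases le_total 0 (D 0) with h | h
        · exact mem_uIcc.2 (Or.inr ⟨by linarith, h⟩)
        · exact mem_uIcc.2 (Or.inl ⟨h, by linarith⟩))
    exact ⟨t0, sub_eq_zero.1 ht0⟩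
  set c := f t0
  refine ⟨c, ?_⟩
  have hp' : Function.Periodic f' (2 * π) := fun t => by
    have h1 := (hd (t + 2 * π)).comp_add_const t (2 * π)
    have e : (fun s => f (s + 2 * π)) = f := funext hp
    rw [e] at h1
    exact h1.unique (hd t)
  have half : ∀ p, f p = c → f (p + π) = c →
      ∫ t in p..(p + π), (f t - c) ^ 2 ≤ ∫ t in p..(p + π), f' t ^ 2 := by
    intro p h1 h2
    have h := Vale.Agent.P071.AnnSector.dirichlet_poincare (h := π / 2) (by positivity)
      (F := fun s => f (s + (p + π / 2)) - c) (f := fun s => f' (s + (p + π / 2)))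
      (fun s => ((hd (s + (p + π / 2))).comp_add_const s _).sub_const c)
      (hf'.comp (by fun_prop))
      (by rw [show -(π / 2) + (p + π / 2) = p by ring, h1, sub_self])
      (by rw [show π / 2 + (p + π / 2) = p + π by ring, h2, sub_self])
    rw [show π / (2 * (π / 2)) = 1 by field_simp, one_pow, one_mul,
      intervalIntegral.integral_comp_add_right (fun s => (f s - c) ^ 2),
      intervalIntegral.integral_comp_add_right (fun s => f' s ^ 2),
      show -(π / 2) + (p + π / 2) = p by ring, show π / 2 + (p + π / 2) = p + π by ring] at h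
    exact h
  have a1 := half t0 rfl ht0
  have a2 := half (t0 + π) ht0 (by rw [show t0 + π + π = t0 + 2 * π by ring, hp])
  have s1 : Continuous fun t => (f t - c) ^ 2 := by fun_prop
  have s2 : Continuous fun t => f' t ^ 2 := hf'.pow 2
  have q1 : Function.Periodic (fun t => (f t - c) ^ 2) (2 * π) := fun t => by simp only [hp t]
  have q2 : Function.Periodic (fun t => f' t ^ 2) (2 * π) := fun t => by simp only [hp' t]
  have e1 := q1.intervalIntegral_add_eq t0 (-π)
  have e2 := q2.intervalIntegral_add_eq t0 (-π)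
  rw [show -π + 2 * π = π by ring] at e1 e2
  rw [← e1, ← e2, ← integral_add_adjacent_intervals (s1.intervalIntegrable t0 (t0 + π))
      (s1.intervalIntegrable _ _),
    ← integral_add_adjacent_intervals (s2.intervalIntegrable t0 (t0 + π))
      (s2.intervalIntegrable _ _), show t0 + 2 * π = t0 + π + π by ring]
  exact add_le_add a1 a2

variable {u : ℂ → ℝ} {K : Set ℂ}

lemma ofReal_circle_integral {H : ℝ → ℝ} (hH : Continuous H) (h0 : ∀ t, 0 ≤ H t) :
    ∫⁻ θ in Ioo (-π) π, ENNReal.ofReal (H θ) = ENNReal.ofReal (∫ θ in (-π)..π, H θ) := by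
  rw [intervalIntegral.integral_of_le (by linarith [pi_pos]), integral_Ioc_eq_integral_Ioo,
    ofReal_integral_eq_lintegral_ofReal
      ((hH.integrableOn_Icc (a := -π) (b := π)).mono_set Ioo_subset_Icc_self)
      (Filter.Eventually.of_forall h0)]

lemma continuous_gsq {r : ℝ} (hr : 0 < r) (hK : IsClosed K) (hC1 : ContDiffOn ℝ 1 u Kᶜ)
    (hfree : sphere (0 : ℂ) r ⊆ Kᶜ) :
    Continuous fun θ => fderiv ℝ u (circleMap 0 r θ) :=
  (hC1.continuousOn_fderiv_of_isOpen hK.isOpen_compl le_rfl).comp_continuous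
    (continuous_circleMap 0 r) fun θ => hfree (circleMap_mem_sphere 0 hr.le θ)

/-- On a circle missing `K` the energy inside is at most `r²` times the angular integral. -/
lemma energy_le_circle (hu : IsGlobalMinimizer u K) {r : ℝ} (hr : 0 < r)
    (hfree : sphere (0 : ℂ) r ⊆ Kᶜ) :
    msEnergy u K (ball 0 r)
      ≤ ENNReal.ofReal (r ^ 2 * ∫ θ in (-π)..π, ‖fderiv ℝ u (circleMap 0 r θ)‖ ^ 2) := by
  obtain ⟨hK, hC1, hfin, hmin⟩ := hu
  have hmem : ∀ θ, circleMap 0 r θ ∈ Kᶜ := fun θ => hfree (circleMap_mem_sphere 0 hr.le θ)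
  have hDc := continuous_gsq hr hK hC1 hfree
  set f : ℝ → ℝ := fun θ => u (circleMap 0 r θ)
  set f' : ℝ → ℝ := fun θ => fderiv ℝ u (circleMap 0 r θ) (circleMap 0 r θ * Complex.I)
  have hd : ∀ θ, HasDerivAt f (f' θ) θ := fun θ =>
    (((hC1.contDiffAt (hK.isOpen_compl.mem_nhds (hmem θ))).differentiableAt
      (by norm_num)).hasFDerivAt).comp_hasDerivAt θ (hasDerivAt_circleMap 0 r θ)
  have hf'c : Continuous f' :=
    hDc.clm_apply ((continuous_circleMap 0 r).mul continuous_const)
  obtain ⟨c, hc⟩ := periodic_wirtinger hd hf'c fun θ => by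
    simp only [f, periodic_circleMap 0 r θ]
  set g : ℝ → ℝ := fun θ => ‖fderiv ℝ u (circleMap 0 r θ)‖ ^ 2
  set H : ℝ → ℝ := fun θ => (f θ - c) ^ 2 / r ^ 2 + g θ
  have hfc : Continuous f := continuous_iff_continuousAt.2 fun t => (hd t).continuousAt
  have hgc : Continuous g := hDc.norm.pow 2
  have hHc : Continuous H := by fun_prop
  have hH0 : ∀ θ, 0 ≤ H θ := fun θ => by positivity
  have hH : ∫ θ in (-π)..π, H θ ≤ 2 * ∫ θ in (-π)..π, g θ := by
    have h1 : ∫ θ in (-π)..π, f' θ ^ 2 ≤ r ^ 2 * ∫ θ in (-π)..π, g θ := by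
      rw [← intervalIntegral.integral_const_mul]
      refine integral_mono_on (by linarith [pi_pos]) ((hf'c.pow 2).intervalIntegrable _ _)
        ((hgc.const_mul _).intervalIntegrable _ _) fun θ _ => ?_
      have h := (fderiv ℝ u (circleMap 0 r θ)).le_opNorm (circleMap 0 r θ * Complex.I)
      rw [norm_mul, Complex.norm_I, mul_one, norm_circleMap_of_nonneg hr.le, Real.norm_eq_abs] at h
      have h' := pow_le_pow_left₀ (abs_nonneg _) h 2
      rw [sq_abs] at h'
      simp only [f', g]
      exact h'.trans_eq (by ring)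
    simp only [H]
    have hi : IntervalIntegrable (fun θ => (f θ - c) ^ 2 / r ^ 2) volume (-π) π :=
      Continuous.intervalIntegrable (by fun_prop) _ _
    rw [intervalIntegral.integral_add hi (hgc.intervalIntegrable _ _), intervalIntegral.integral_div,
      two_mul]
    refine add_le_add ?_ le_rfl
    rw [div_le_iff₀ (by positivity)]
    linarith
  set v := cone u r c
  set L := K \ ball 0 r
  have hmin' := hmin 0 (r + 1) v L (closedBall 0 r) (hK.sdiff isOpen_ball)
    (cone_locallyLipschitzOn hK hC1 hr hfree c) (isCompact_closedBall _ _)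
    (closedBall_subset_ball (by linarith))
    (by rw [sdiff_sdiff_left, sup_eq_right.2 ball_subset_closedBall])
    (fun y hy _ => by
      rw [mem_closedBall_zero_iff, not_le] at hy
      exact cone_eq_self hr hy.le)
    (by
      intro p q hp hq hpq hq'
      set W := connectedComponentIn Kᶜ p with hW
      have hpK : p ∈ Kᶜ := fun h => hp (Or.inr h)
      have hqb : r < ‖q‖ := by
        by_contra h; rw [not_lt] at h
        exact hq (Or.inl (mem_ball_zero_iff.2 (by linarith)))
      have hpb : r < ‖p‖ := by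
        by_contra h; rw [not_lt] at h
        exact hp (Or.inl (mem_ball_zero_iff.2 (by linarith)))
      have hWo : IsOpen W := hK.isOpen_compl.connectedComponentIn
      have hWc : IsOpen (Kᶜ \ W) := by
        refine isOpen_iff_mem_nhds.2 fun y hy => Filter.mem_of_superset
          ((hK.isOpen_compl.connectedComponentIn (x := y)).mem_nhds
            (mem_connectedComponentIn hy.1))
          fun z hz => ⟨connectedComponentIn_subset _ _ hz, fun hzp => hy.2 ?_⟩
        rw [hW, (connectedComponentIn_eq hzp).trans (connectedComponentIn_eq hz).symm]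
        exact mem_connectedComponentIn hy.1
      have hsc : IsPreconnected (sphere (0 : ℂ) r) := by
        rw [← abs_of_pos hr, ← range_circleMap]
        exact isPreconnected_range (continuous_circleMap 0 r)
      have hU := (isPreconnected_connectedComponentIn (F := Lᶜ) (x := p))
      have hmemL : ∀ y ∈ Lᶜ, y ∈ Kᶜ ∨ y ∈ ball (0 : ℂ) r := fun y hy => by
        by_cases h : y ∈ K
        · exact Or.inr (not_not.1 fun h' => hy ⟨h, h'⟩)
        · exact Or.inl h
      have hpL : p ∈ Lᶜ := fun h => hpK h.1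
      by_cases hsW : (sphere (0 : ℂ) r ∩ W).Nonempty
      · obtain ⟨s, hs, hsW⟩ := hsW
        have hSW : sphere (0 : ℂ) r ⊆ W := by
          rw [hW, connectedComponentIn_eq hsW]
          exact hsc.subset_connectedComponentIn hs hfree
        have hsub := hU.subset_left_of_subset_union (u := W ∪ ball 0 r)
          (v := (Kᶜ \ W) \ closedBall 0 r) (hWo.union isOpen_ball) (hWc.sdiff isClosed_closedBall)
          (disjoint_left.2 fun y h h' => h.elim h'.1.2 fun hb => h'.2 (ball_subset_closedBall hb))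
          (fun y hy => by
            rcases hmemL y (connectedComponentIn_subset _ _ hy) with h | h
            · by_cases hyW : y ∈ W
              · exact Or.inl (Or.inl hyW)
              · by_cases hyb : y ∈ closedBall (0 : ℂ) r
                · rw [← ball_union_sphere] at hyb
                  exact hyb.elim (fun hb => Or.inl (Or.inr hb)) fun hb => absurd (hSW hb) hyW
                · exact Or.inr ⟨⟨h, hyW⟩, hyb⟩
            · exact Or.inl (Or.inr h))
          ⟨p, mem_connectedComponentIn hpL, Or.inl (mem_connectedComponentIn hpK)⟩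
        rcases hsub hq' with h | h
        · exact hpq h
        · rw [mem_ball_zero_iff] at h; linarith
      · have hWout : ∀ y ∈ W, r < ‖y‖ := fun y hy => by
          by_contra h; rw [not_lt] at h
          obtain ⟨z, hz, hzr⟩ := (isPreconnected_connectedComponentIn (F := Kᶜ) (x := p)
            ).intermediate_value hy (mem_connectedComponentIn hpK) continuous_norm.continuousOn
            (⟨h, hpb.le⟩ : r ∈ Icc ‖y‖ ‖p‖)
          exact hsW ⟨z, mem_sphere_zero_iff_norm.2 hzr, hz⟩
        have hsub := hU.subset_left_of_subset_union (u := W) (v := (Kᶜ \ W) ∪ ball 0 r) hWo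
          (hWc.union isOpen_ball)
          (disjoint_left.2 fun y h h' => h'.elim (fun h'' => h''.2 h) fun hb => by
            rw [mem_ball_zero_iff] at hb; linarith [hWout y h])
          (fun y hy => by
            rcases hmemL y (connectedComponentIn_subset _ _ hy) with h | h
            · by_cases hyW : y ∈ W
              · exact Or.inl hyW
              · exact Or.inr (Or.inl ⟨h, hyW⟩)
            · exact Or.inr (Or.inr h))
          ⟨p, mem_connectedComponentIn hpL, mem_connectedComponentIn hpK⟩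
        exact hpq (hsub hq'))
  have hfin' := hfin 0 (r + 1)
  unfold msEnergy at hmin' hfin' ⊢
  set O := (ball (0 : ℂ) (r + 1) \ K) \ ball 0 r
  have hOm : MeasurableSet O :=
    (measurableSet_ball.diff hK.measurableSet).diff measurableSet_ball
  have hU : ball (0 : ℂ) (r + 1) \ K = (ball 0 r \ K) ∪ O := by
    ext y
    simp only [O, mem_sdiff, mem_union, mem_ball_zero_iff]
    constructor
    · intro h; by_cases h' : ‖y‖ < r
      · exact Or.inl ⟨h', h.2⟩
      · exact Or.inr ⟨h, h'⟩
    · rintro (h | h)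
      · exact ⟨by linarith [h.1], h.2⟩
      · exact h.1
  have hV : ball (0 : ℂ) (r + 1) \ L = ball 0 r ∪ O := by
    ext y
    simp only [L, O, mem_sdiff, mem_union, mem_ball_zero_iff, not_and, not_not]
    constructor
    · intro h; by_cases h' : ‖y‖ < r
      · exact Or.inl h'
      · exact Or.inr ⟨⟨h.1, fun hk => h' (h.2 hk)⟩, h'⟩
    · rintro (h | h)
      · exact ⟨by linarith, fun _ => h⟩
      · exact ⟨h.1.1, fun hk => absurd hk h.1.2⟩
  have hHs : μH[1] (K ∩ ball (0 : ℂ) (r + 1))
      = μH[1] (K ∩ ball (0 : ℂ) r) + μH[1] (L ∩ ball (0 : ℂ) (r + 1)) := by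
    rw [← measure_inter_add_sdiff (μ := μH[1]) (K ∩ ball (0 : ℂ) (r + 1))
      (measurableSet_ball (x := (0 : ℂ)) (ε := r)), inter_assoc,
      inter_eq_right.2 (ball_subset_ball (by linarith : r ≤ r + 1))]
    congr 2
    ext y; simp only [L, mem_sdiff, mem_inter_iff]; tauto
  rw [hU, lintegral_union hOm (disjoint_left.2 fun y h h' => h'.2 h.1),
    hV, lintegral_union hOm (disjoint_left.2 fun y h h' => h'.2 h), hHs] at hmin'
  rw [hU, lintegral_union hOm (disjoint_left.2 fun y h h' => h'.2 h.1), hHs] at hfin'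
  have hOv : ∫⁻ x in O, ENNReal.ofReal (‖fderiv ℝ v x‖ ^ 2)
      = ∫⁻ x in O, ENNReal.ofReal (‖fderiv ℝ u x‖ ^ 2) := by
    refine setLIntegral_congr_fun_ae hOm ?_
    have h0 : ∀ᵐ x : ℂ ∂volume, x ∉ sphere (0 : ℂ) r :=
      measure_eq_zero_iff_ae_notMem.1 (Measure.addHaar_sphere volume (0 : ℂ) r)
    filter_upwards [h0] with x hx hxO
    have hlt : r < ‖x‖ := lt_of_le_of_ne (not_lt.1 fun h => hxO.2 (mem_ball_zero_iff.2 h))
      fun h => hx (mem_sphere_zero_iff_norm.2 h.symm)
    have he : v =ᶠ[nhds x] u := by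
      filter_upwards [(isOpen_lt continuous_const continuous_norm).mem_nhds hlt] with y hy
      exact cone_eq_self hr hy.le
    rw [he.fderiv_eq]
  have hIv : ∫⁻ x in ball (0 : ℂ) r, ENNReal.ofReal (‖fderiv ℝ v x‖ ^ 2)
      ≤ ENNReal.ofReal (r ^ 2 * ∫ θ in (-π)..π, g θ) := by
    rw [← lintegral_indicator measurableSet_ball, lintegral_polar
      (((measurable_fderiv ℝ v).norm.pow_const 2).ennreal_ofReal.indicator measurableSet_ball)]
    calc ∫⁻ ρ in Ioi (0 : ℝ), ∫⁻ θ in Ioo (-π) π, ENNReal.ofReal ρ * (ball (0 : ℂ) r).indicator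
          (fun x => ENNReal.ofReal (‖fderiv ℝ v x‖ ^ 2)) (circleMap 0 ρ θ)
        ≤ ∫⁻ ρ in Ioi (0 : ℝ), (Ioo 0 r).indicator
            (fun ρ => ENNReal.ofReal ρ * ENNReal.ofReal (∫ θ in (-π)..π, H θ)) ρ := by
          refine setLIntegral_mono' measurableSet_Ioi fun ρ hρ => ?_
          rw [mem_Ioi] at hρ
          rw [lintegral_const_mul' _ _ ENNReal.ofReal_ne_top]
          by_cases h : ρ < r
          · rw [indicator_of_mem (show ρ ∈ Ioo 0 r from ⟨hρ, h⟩), ← ofReal_circle_integral hHc hH0]
            gcongr with θ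
            have hn : ‖circleMap 0 ρ θ‖ = ρ := norm_circleMap_of_nonneg hρ.le θ
            have hb : circleMap 0 ρ θ ∈ ball (0 : ℂ) r := by rw [mem_ball_zero_iff, hn]; exact h
            rw [indicator_of_mem hb]
            have he : onCircle r (circleMap 0 ρ θ) = circleMap 0 r θ := by
              rw [onCircle, hn, circleMap_zero, circleMap_zero, Complex.real_smul, ← mul_assoc,
                ← Complex.ofReal_mul, div_mul_cancel₀ _ hρ.ne']
            refine ENNReal.ofReal_le_ofReal ?_
            have := cone_fderiv_le hK hC1 hr hfree c hb (by rw [← norm_pos_iff, hn]; exact hρ)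
            rwa [he] at this
          · have : ∀ θ, (ball (0 : ℂ) r).indicator
                (fun x => ENNReal.ofReal (‖fderiv ℝ v x‖ ^ 2)) (circleMap 0 ρ θ) = 0 := fun θ => by
              refine indicator_of_notMem (fun h' => h ?_) _
              rwa [mem_ball_zero_iff, norm_circleMap_of_nonneg hρ.le] at h'
            simp only [this, lintegral_zero, mul_zero]
            exact bot_le
      _ = ENNReal.ofReal (r ^ 2 / 2) * ENNReal.ofReal (∫ θ in (-π)..π, H θ) := by
          rw [setLIntegral_indicator measurableSet_Ioo, Ioo_inter_Ioi, max_self,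
            lintegral_mul_const' _ _ ENNReal.ofReal_ne_top]
          congr 1
          rw [← ofReal_integral_eq_lintegral_ofReal
            ((continuous_id'.integrableOn_Icc (a := (0 : ℝ)) (b := r)).mono_set Ioo_subset_Icc_self)
            ((ae_restrict_iff' measurableSet_Ioo).2
              (Filter.Eventually.of_forall fun ρ hρ => hρ.1.le))]
          rw [← integral_Ioc_eq_integral_Ioo, ← intervalIntegral.integral_of_le hr.le, integral_id]
          simp
      _ ≤ _ := by
          rw [← ENNReal.ofReal_mul (by positivity)]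
          refine ENNReal.ofReal_le_ofReal ?_
          nlinarith [mul_le_mul_of_nonneg_left hH (sq_nonneg r)]
  rw [hOv] at hmin'
  set IO := ∫⁻ x in O, ENNReal.ofReal (‖fderiv ℝ u x‖ ^ 2)
  set EA := ∫⁻ x in ball (0 : ℂ) r \ K, ENNReal.ofReal (‖fderiv ℝ u x‖ ^ 2)
  set HA := μH[1] (K ∩ ball (0 : ℂ) r)
  set HO := μH[1] (L ∩ ball (0 : ℂ) (r + 1))
  have hne : IO + HO ≠ ⊤ := by
    obtain ⟨h1, h2⟩ := ENNReal.add_lt_top.1 hfin'
    exact ENNReal.add_ne_top.2 ⟨(ENNReal.add_lt_top.1 h1).2.ne, (ENNReal.add_lt_top.1 h2).2.ne⟩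
  refine (ENNReal.add_le_add_iff_right hne).1 ?_
  calc EA + HA + (IO + HO) = EA + IO + (HA + HO) := by ring
    _ ≤ ENNReal.ofReal (r ^ 2 * ∫ θ in (-π)..π, g θ) + IO + HO := hmin'.trans (by gcongr)
    _ = _ := by ring

/-- The normalised energy step on a shell, valid while the energy is at most the radius. -/
lemma shell_step (hu : IsGlobalMinimizer u K) {a b : ℝ} (ha : 0 < a) (hab : a < b)
    (hb : (msEnergy u K (ball 0 b)).toReal ≤ b) :
    (msEnergy u K (ball 0 a)).toReal * (2 - a / b) ≤ (msEnergy u K (ball 0 b)).toReal := by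
  have hu' := hu
  obtain ⟨hK, hC1, hfin, hmin⟩ := hu
  have hb0 : 0 < b := ha.trans hab
  have hmono : ∀ s t, s ≤ t → msEnergy u K (ball 0 s) ≤ msEnergy u K (ball 0 t) := fun s t h => by
    unfold msEnergy
    gcongr
  set Φa := (msEnergy u K (ball 0 a)).toReal
  have hΦa : 0 ≤ Φa := ENNReal.toReal_nonneg
  have hab' : Φa ≤ b := (ENNReal.toReal_mono (hfin 0 b).ne (hmono a b hab.le)).trans hb
  set q := Φa / b
  have hq0 : 0 ≤ q := by positivity
  have hq1 : q ≤ 1 := (div_le_one hb0).2 hab'
  set N := (fun x : ℂ => ‖x‖) '' (K ∩ closedBall 0 b)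
  have hN : MeasurableSet N :=
    (((isCompact_closedBall _ _).inter_left hK).image continuous_norm).isClosed.measurableSet
  set F := Ioo a b \ N
  have hF : MeasurableSet F := measurableSet_Ioo.diff hN
  set S := ball (0 : ℂ) b \ ball 0 a
  set Ω := {x : ℂ | ‖x‖ ∈ F}
  have hΩ : MeasurableSet Ω := measurable_norm hF
  have hΩs : Ω ⊆ S \ K := fun x hx =>
    ⟨⟨mem_ball_zero_iff.2 hx.1.2, fun h => by rw [mem_ball_zero_iff] at h; linarith [hx.1.1]⟩,
      fun hk => hx.2 ⟨x, ⟨hk, mem_closedBall_zero_iff.2 hx.1.2.le⟩, rfl⟩⟩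
  have hE : ENNReal.ofReal q * volume F
      ≤ ∫⁻ x in S \ K, ENNReal.ofReal (‖fderiv ℝ u x‖ ^ 2) := by
    refine le_trans ?_ (lintegral_mono_set hΩs)
    rw [← lintegral_indicator hΩ, lintegral_polar
      (((measurable_fderiv ℝ u).norm.pow_const 2).ennreal_ofReal.indicator hΩ),
      ← setLIntegral_const]
    refine le_trans ?_ (lintegral_mono_set (show F ⊆ Ioi 0 from fun ρ hρ => ha.trans hρ.1.1))
    refine setLIntegral_mono' hF fun ρ hρ => ?_
    have hρ0 : 0 < ρ := ha.trans hρ.1.1
    have hfree : sphere (0 : ℂ) ρ ⊆ Kᶜ := fun x hx hk => hρ.2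
      ⟨x, ⟨hk, mem_closedBall_zero_iff.2 (by rw [mem_sphere_zero_iff_norm.1 hx]; exact hρ.1.2.le)⟩,
        mem_sphere_zero_iff_norm.1 hx⟩
    set G := ∫ θ in (-π)..π, ‖fderiv ℝ u (circleMap 0 ρ θ)‖ ^ 2
    have hG : 0 ≤ G := intervalIntegral.integral_nonneg (by linarith [pi_pos]) fun _ _ => sq_nonneg _
    have hle := energy_le_circle hu' hρ0 hfree
    have hle' : Φa ≤ ρ ^ 2 * G := by
      have := ENNReal.toReal_mono ENNReal.ofReal_ne_top ((hmono a ρ hρ.1.1.le).trans hle)
      rwa [ENNReal.toReal_ofReal (by positivity)] at this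
    have hqG : q ≤ ρ * G := by
      rw [div_le_iff₀ hb0]
      nlinarith [mul_le_mul_of_nonneg_left hρ.1.2.le (mul_nonneg hρ0.le hG)]
    calc ENNReal.ofReal q ≤ ENNReal.ofReal (ρ * G) := ENNReal.ofReal_le_ofReal hqG
      _ = ∫⁻ θ in Ioo (-π) π,
            ENNReal.ofReal ρ * ENNReal.ofReal (‖fderiv ℝ u (circleMap 0 ρ θ)‖ ^ 2) := by
          rw [lintegral_const_mul' _ _ ENNReal.ofReal_ne_top, ENNReal.ofReal_mul hρ0.le,
            ofReal_circle_integral
              (H := fun θ => ‖fderiv ℝ u (circleMap 0 ρ θ)‖ ^ 2)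
              ((continuous_gsq hρ0 hK hC1 hfree).norm.pow 2) fun _ => sq_nonneg _]
      _ = _ := by
          congr 1
          ext θ
          rw [indicator_of_mem]
          show ‖circleMap 0 ρ θ‖ ∈ F
          rwa [norm_circleMap_of_nonneg hρ0.le]
  have hH : volume (Ioo a b ∩ N) ≤ μH[1] (K ∩ S) := by
    have hsub : Ioo a b ∩ N ⊆ (fun x : ℂ => ‖x‖) '' (K ∩ S) := by
      rintro _ ⟨ht, x, hx, rfl⟩
      exact ⟨x, ⟨hx.1, mem_ball_zero_iff.2 ht.2,
        fun h => by rw [mem_ball_zero_iff] at h; linarith [ht.1]⟩, rfl⟩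
    refine (measure_mono hsub).trans ?_
    rw [← hausdorffMeasure_real]
    simpa using lipschitzWith_one_norm.hausdorffMeasure_image_le zero_le_one (K ∩ S)
  have hsplit : msEnergy u K (ball 0 a) + ENNReal.ofReal (q * (b - a))
      ≤ msEnergy u K (ball 0 b) := by
    have hI : ENNReal.ofReal (q * (b - a))
        = ENNReal.ofReal q * volume F + ENNReal.ofReal q * volume (Ioo a b ∩ N) := by
      rw [← mul_add, add_comm, measure_inter_add_sdiff _ hN, Real.volume_Ioo, ENNReal.ofReal_mul hq0]
    have hH' : ENNReal.ofReal q * volume (Ioo a b ∩ N) ≤ μH[1] (K ∩ S) :=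
      (mul_le_of_le_one_left bot_le (ENNReal.ofReal_le_one.2 hq1)).trans hH
    unfold msEnergy
    rw [hI]
    have e1 : ball (0 : ℂ) b \ K = (ball 0 a \ K) ∪ (S \ K) := by
      rw [← union_sdiff_distrib, union_sdiff_cancel (ball_subset_ball hab.le)]
    have e2 : K ∩ ball (0 : ℂ) b = (K ∩ ball 0 a) ∪ (K ∩ S) := by
      rw [← inter_union_distrib_left, union_sdiff_cancel (ball_subset_ball hab.le)]
    rw [e1, lintegral_union ((measurableSet_ball.diff measurableSet_ball).diff hK.measurableSet)
        (disjoint_left.2 fun y h h' => h'.1.2 h.1), e2,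
      measure_union (disjoint_left.2 fun y h h' => h'.2.2 h.2)
        (hK.measurableSet.inter (measurableSet_ball.diff measurableSet_ball))]
    exact (add_le_add le_rfl (add_le_add hE hH')).trans_eq (by ring)
  have := ENNReal.toReal_mono (hfin 0 b).ne hsplit
  rw [ENNReal.toReal_add (hfin 0 a).ne ENNReal.ofReal_ne_top,
    ENNReal.toReal_ofReal (mul_nonneg hq0 (by linarith))] at this
  refine le_trans (le_of_eq ?_) this
  simp only [q, Φa]
  field_simp
  ring

/-- Small normalised energy in a big disk gives small normalised energy in smaller disks. -/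
lemma energy_ratio (hu : IsGlobalMinimizer u K) {a R q : ℝ} (ha : 0 < a) (haR : a < R)
    (hq : q ≤ 1 / 2) (hR : (msEnergy u K (ball 0 R)).toReal ≤ q * R) :
    (msEnergy u K (ball 0 a)).toReal ≤ 2 * q * a := by
  set Φ : ℝ → ℝ := fun t => (msEnergy u K (ball 0 t)).toReal
  have hR0 : 0 < R := ha.trans haR
  have hq0 : 0 ≤ q := by
    by_contra h; rw [not_le] at h
    nlinarith [(ENNReal.toReal_nonneg : 0 ≤ (msEnergy u K (ball 0 R)).toReal)]
  set ℓ := log (R / a)
  have hℓ : 0 < ℓ := log_pos (by rw [lt_div_iff₀ ha]; linarith)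
  set n : ℕ := ⌈8 * ℓ ^ 2 + ℓ + 1⌉₊
  have hn : 8 * ℓ ^ 2 + ℓ + 1 ≤ (n : ℝ) := Nat.le_ceil _
  have hn0 : (0 : ℝ) < n := by nlinarith
  set l := exp (ℓ / n)
  have hl1 : 1 < l := one_lt_exp_iff.2 (by positivity)
  have hl : l - 1 ≤ 2 * (ℓ / n) := by
    have h1 : |ℓ / n| ≤ 1 := by
      rw [abs_of_nonneg (by positivity), div_le_one hn0]; nlinarith
    have := abs_exp_sub_one_le h1
    rw [abs_of_nonneg (by positivity : 0 ≤ ℓ / n), abs_of_nonneg (by linarith : 0 ≤ exp (ℓ / n) - 1)]
      at this
    exact this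
  have hln : l ^ n = R / a := by
    rw [← exp_nat_mul, mul_div_cancel₀ _ hn0.ne', exp_log (by positivity)]
  set k := l ^ 2 / (2 * l - 1)
  have hk1 : 1 ≤ k := by rw [one_le_div (by linarith)]; nlinarith [sq_nonneg (l - 1)]
  have hkn : k ^ n ≤ 2 := by
    have hk : k ≤ exp ((l - 1) ^ 2) := by
      refine le_trans ?_ (add_one_le_exp _)
      rw [div_le_iff₀ (by linarith)]
      nlinarith [mul_nonneg (sq_nonneg (l - 1)) (by linarith : (0 : ℝ) ≤ 2 * l - 2)]
    refine (pow_le_pow_left₀ (by linarith) hk n).trans ?_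
    rw [← exp_nat_mul]
    have h2 : (n : ℝ) * (l - 1) ^ 2 ≤ 1 / 2 := by
      refine (mul_le_mul_of_nonneg_left (pow_le_pow_left₀ (by linarith) hl 2) hn0.le).trans ?_
      field_simp
      nlinarith
    refine (exp_le_exp.2 h2).trans ((exp_le_exp.2 ?_).trans_eq (exp_log (by norm_num : (0:ℝ) < 2)))
    linarith [log_two_gt_d9]
  have key : ∀ j, j ≤ n → Φ (R / l ^ j) ≤ k ^ j * q * (R / l ^ j) := by
    intro j
    induction j with
    | zero => intro _; simpa using hR
    | succ j ih =>
      intro hj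
      have hj' := ih (by omega)
      have hlt : R / l ^ (j + 1) < R / l ^ j :=
        div_lt_div_of_pos_left hR0 (by positivity) (pow_lt_pow_right₀ hl1 (by omega))
      have hcoef : k ^ j * q ≤ 1 := by
        calc k ^ j * q ≤ 2 * (1 / 2) := mul_le_mul ((pow_le_pow_right₀ hk1 (by omega)).trans hkn)
              hq hq0 (by norm_num)
          _ = 1 := by norm_num
      have hpos : 0 < R / l ^ j := by positivity
      have hstep := shell_step hu (by positivity : 0 < R / l ^ (j + 1)) hlt
        (hj'.trans (mul_le_of_le_one_left hpos.le hcoef))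
      have hr : R / l ^ (j + 1) / (R / l ^ j) = 1 / l := by
        rw [pow_succ]; field_simp
      rw [hr] at hstep
      have h2 : 0 < 2 - 1 / l := by
        have : 1 / l < 1 := (div_lt_one (by linarith)).2 hl1
        linarith
      refine (mul_le_mul_iff_left₀ h2).1 (hstep.trans (hj'.trans_eq ?_))
      have : 2 * l - 1 ≠ 0 := by linarith
      simp only [k, pow_succ]
      field_simp
      rw [eq_div_iff (by linarith)]
      ring
  have h := key n le_rfl
  have ha' : R / l ^ n = a := by rw [hln]; field_simp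
  rw [ha'] at h
  exact h.trans (mul_le_mul_of_nonneg_right (mul_le_mul_of_nonneg_right hkn hq0) ha.le)

end Vale.Agent.P128
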